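import Vale.Agent.P281.H64.TD.SpecB
import Vale.Agent.P281.H511.UD.Spec
import Vale.Agent.P281.H349.D.Pole

/-!
# P281, project T-UD (helper303): immersed fibres and arbitrary boundaries, statements of the blocks

`F' → F` a finite étale covering immersed in a torus `V / Λ`, `Δ` arbitrary. `𝔟 ≤ V`: the vectors
tangent to `F'` everywhere; the group `𝔟` acts on `F'`, through a torus `𝔟 / (N (𝔟 ∩ Λ))`.
`Vb ≃ 𝔟_y` by `j y`; `ℓ y : V → Vb` is the orthogonal projection (for the polarization `Q`, which is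
only real: `ker ℓ` is not rational); `ϖ y`: the periods of `Vb` (a basis of `N (𝔟 ∩ Λ)`).
`u x : Vb → X`, `u x v = exp(j v) x`: *a family of tori with parameter space `X ∖ f⁻¹(S)`*.
-/

open Set Filter Metric MeasureTheory Vale.Agent.P281 Vale.Agent.P281.H713
open Vale.Agent.P272.K (Chart IsKahler IsHermitian)
open Vale.Agent.P281.MF Vale.Agent.P281.ISO Vale.Agent.P281.ELL Vale.Agent.P281.H713.TZ
open Vale.Agent.P281.H64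
open Vale.Agent.P281.H64.Thin (IsThinSet)
open Vale.Agent.P281.H64.Gen (IsSmallSet IsSmall2 excSet NoExc ExcOne)
open Vale.Agent.P281.H64.TU (Tame KTame IsNondegR HasFormsT RankAt IsGen)
open Vale.Agent.P281.H603.TE (sub fsub core)
open Vale.Agent.P281.H64.TD (Cub zr)

open scoped Topology ContDiff Manifold ComplexConjugate ComplexOrder ENNReal NNReal

noncomputable section

namespace Vale.Agent.P281.H303.UD

section Orb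

variable (E E' : Type) [NormedAddCommGroup E] [NormedSpace ℂ E]
  [NormedAddCommGroup E'] [NormedSpace ℂ E']
variable {X Y : Type} [TopologicalSpace X] [ChartedSpace E X]
  [TopologicalSpace Y] [ChartedSpace E' Y]
variable {V : Type} [NormedAddCommGroup V] [InnerProductSpace ℂ V] [FiniteDimensional ℂ V]
variable {Vb : Type} [NormedAddCommGroup Vb] [InnerProductSpace ℂ Vb] [FiniteDimensional ℂ Vb]

/-- `G` normalises the polarized periods `p` -/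
def IsPolz {W : Type} [NormedAddCommGroup W] [InnerProductSpace ℂ W] {n : ℕ}
    (Q : (Fin n → ℝ) → (Fin n → ℝ) → ℝ) (p : (Fin n → ℝ) ≃L[ℝ] W) (G : W ≃L[ℂ] W) : Prop :=
  ∀ x x', (inner ℂ (G (p x)) (G (p x'))).im = Q x x'

/-- `L a x β`: `β` is one of the lifts near `x` of the Albanese map number `a`; `u a x β : Vb → X`:
the orbit of `x` (in the coordinates of `β`). -/
structure IsOrbM {n nb : ℕ} (d : ℕ) (T : Tame (Fin d → ℂ) X) (f : X → Y) (S : Set Y)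
    (Q : (Fin n → ℝ) → (Fin n → ℝ) → ℝ) (QB : (Fin nb → ℝ) → (Fin nb → ℝ) → ℝ) {ι : Type}
    (U : ι → Set Y) (π : ι → Y → ((Fin n → ℝ) ≃L[ℝ] V)) (ϖ : ι → Y → ((Fin nb → ℝ) ≃L[ℝ] Vb))
    (j : ι → Y → Vb →L[ℂ] V) (ℓ : ι → Y → V →L[ℂ] Vb) (L : ι → X → (X → V) → Prop)
    (u : ι → X → (X → V) → Vb → X) : Prop extends IsPeriodFamily E' S Q U π where
  famb : IsPeriodFamily E' S QB U ϖ
  lj : ∀ a, ∀ y ∈ U a, ∀ b, ℓ a y (j a y b) = b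
  jhol : ∀ a b, ∀ y ∈ U a, ContMDiffAt 𝓘(ℂ, E') 𝓘(ℂ, V) ω (fun y => j a y b) y
  lhol : ∀ a v, ∀ y ∈ U a, ContMDiffAt 𝓘(ℂ, E') 𝓘(ℂ, Vb) ω (fun y => ℓ a y v) y
  norm : ∀ a, ∀ y ∈ U a, ∀ G : V ≃L[ℂ] V, IsPolz Q (π a y) G → ∀ v,
    ‖G (j a y (ℓ a y v))‖ ≤ ‖G v‖
  rel : ∀ a, ∀ y ∈ U a, ∀ G : V ≃L[ℂ] V, IsPolz Q (π a y) G → ∀ Gb : Vb ≃L[ℂ] Vb,
    IsPolz QB (ϖ a y) Gb → ∀ b, ‖Gb b‖ = ‖G (j a y b)‖
  coord : ∀ x, f x ∉ S → ∃ ζ : X → (Fin d → ℂ), IsFibreCoord E E' f ζ x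
  mem : ∀ a x β, L a x β → f x ∈ U a
  lift : ∀ a x, f x ∈ U a → ∃ β : X → V, L a x β
  near : ∀ a x β, L a x β → ∀ᶠ z in 𝓝 x, L a z β
  liftHol : ∀ a x β, L a x β → ContMDiffAt 𝓘(ℂ, E) 𝓘(ℂ, V) ω β x
  imm : ∀ a x β, L a x β → ∀ ξ : E, mfderiv 𝓘(ℂ, E) 𝓘(ℂ, E') f x ξ = 0 →
    mfderiv 𝓘(ℂ, E) 𝓘(ℂ, V) β x ξ = 0 → ξ = 0
  full : ∀ a x β, L a x β → ∀ l : V →L[ℂ] ℂ,
    (∀ᶠ z in 𝓝 x, f z = f x → l (β z) = l (β x)) → l = 0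
  uhol : ∀ a x β, L a x β → ∀ v,
    ContMDiffAt (𝓘(ℂ, E).prod 𝓘(ℂ, Vb)) 𝓘(ℂ, E) ω (fun z : X × Vb => u a z.1 β z.2) (x, v)
  fib : ∀ a x β, L a x β → ∀ v, f (u a x β v) = f x
  zero : ∀ a x β, L a x β → u a x β 0 = x
  per : ∀ a x β, L a x β → ∀ v (m : Fin nb → ℤ), u a x β (v + ϖ a (f x) (zr m)) = u a x β v
  trans : ∀ a x β, L a x β → ∀ v, ∃ β', L a (u a x β v) β' ∧
    (∀ v', u a (u a x β v) β' v' = u a x β (v + v')) ∧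
    ∀ᶠ z in 𝓝 (x, v), β' (u a z.1 β z.2) = β z.1 + j a (f z.1) z.2
  change : ∀ a b x β β', L a x β → L b x β' → ∃ (G : V ≃L[ℂ] V) (c : V) (Gb : Vb ≃L[ℂ] Vb),
    IsPeriodChange Q (π a (f x)) (π b (f x)) G ∧ IsPeriodChange QB (ϖ a (f x)) (ϖ b (f x)) Gb ∧
    (∀ v, j b (f x) (Gb v) = G (j a (f x) v)) ∧ (∀ v, ℓ b (f x) (G v) = Gb (ℓ a (f x) v)) ∧
    ∀ᶠ z in 𝓝 x, f z = f x → β' z = G (β z) + c ∧ ∀ v, u b z β' (Gb v) = u a z β v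
  bound : ∀ r K : ℝ, 0 < r → 0 < K → ∃ A : ℝ, ∀ (a : ι) (q : (Fin d → ℂ) → X) (v₀ : Fin d → ℂ),
    IsPolydisc E f q v₀ r → T K q v₀ r → f (q v₀) ∈ U a → ∃ h : (Fin d → ℂ) → V,
    DifferentiableOn ℂ h (ball v₀ r) ∧
    (∀ G : V ≃L[ℂ] V, IsPolz Q (π a (f (q v₀))) G →
      ∀ v ∈ ball v₀ (r / 2), ‖fderiv ℂ (fun u => G (h u)) v‖ ≤ A) ∧
    (∀ v ∈ ball v₀ r, Function.Injective (fderiv ℂ h v) →
      ∀ b, ∃ ξ, fderiv ℂ h v ξ = j a (f (q v₀)) b) ∧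
    ∃ β : X → V, L a (q v₀) β ∧ (∀ᶠ v in 𝓝 v₀, β (q v) = h v) ∧
      ∀ c : ℝ → (Fin d → ℂ), ContinuousOn c (Icc 0 1) → (∀ s ∈ Icc (0 : ℝ) 1, c s ∈ ball v₀ r) →
      c 0 = v₀ → ∀ v : Vb, (∀ s ∈ Icc (0 : ℝ) 1, h (c s) = h v₀ + (s : ℂ) • j a (f (q v₀)) v) →
      q (c 1) = u a (q v₀) β v

/-- The output of the gluing: `L a x β w`, `w x` is the third logarithmic derivative (at `0 ∈ Vb`) of
the theta function of the divisor on the orbit of `x`. -/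
structure IsOrbD {n nb : ℕ} (d : ℕ) (T : Tame (Fin d → ℂ) X) (f : X → Y) (S : Set Y)
    (Q : (Fin n → ℝ) → (Fin n → ℝ) → ℝ) (QB : (Fin nb → ℝ) → (Fin nb → ℝ) → ℝ) {ι : Type}
    (U : ι → Set Y) (π : ι → Y → ((Fin n → ℝ) ≃L[ℝ] V)) (ϖ : ι → Y → ((Fin nb → ℝ) ≃L[ℝ] Vb))
    (j : ι → Y → Vb →L[ℂ] V) (ℓ : ι → Y → V →L[ℂ] Vb) (L : ι → X → (X → V) → Prop)
    (u : ι → X → (X → V) → Vb → X) (𝒜 : Set (Set X))
    (Lw : ι → X → (X → V) → (X → Cub Vb) → Prop) : Prop where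
  lift : ∀ a x β, L a x β → ∃ w, Lw a x β w
  toL : ∀ a x β w, Lw a x β w → L a x β
  pole : ∀ a x β w, Lw a x β w → ∀ (F : Finset (Set X)) (e : Set X → X → ℂ), (∀ D ∈ 𝒜, D ∈ F) →
    (∀ D ∈ F, IsLocalEq E D (e D) x) → ∃ H : X → Cub Vb,
      ContMDiffAt 𝓘(ℂ, E) 𝓘(ℂ, Cub Vb) ω H x ∧
      ∀ᶠ z in 𝓝 x, (∀ D ∈ 𝒜, z ∉ D) → (∏ D ∈ F, e D z) ^ 3 • w z = H z
  near : ∀ a x β w, Lw a x β w → ∀ᶠ z in 𝓝 x, Lw a z β w
  change : ∀ a b x β β' w w', Lw a x β w → Lw b x β' w' → ∃ (G : V ≃L[ℂ] V) (c : V)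
    (Gb : Vb ≃L[ℂ] Vb), IsPeriodChange Q (π a (f x)) (π b (f x)) G ∧
    IsPeriodChange QB (ϖ a (f x)) (ϖ b (f x)) Gb ∧
    (∀ v, j b (f x) (Gb v) = G (j a (f x) v)) ∧ (∀ v, ℓ b (f x) (G v) = Gb (ℓ a (f x) v)) ∧
    ∀ᶠ z in 𝓝 x, f z = f x → β' z = G (β z) + c ∧ ((∀ D ∈ 𝒜, z ∉ D) →
      w z = (w' z).compContinuousLinearMap fun _ => (Gb : Vb →L[ℂ] Vb))
  bound : ∃ M : ℕ, ∀ ρ K : ℝ, 0 < ρ → 0 < K → ∃ B : ℝ, ∀ (a : ι) (q : (Fin d → ℂ) → X)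
    (v₀ : Fin d → ℂ), IsPolydisc E f q v₀ ρ → T K q v₀ ρ → f (q v₀) ∈ U a →
    (∀ v ∈ ball v₀ ρ, ∀ D ∈ 𝒜, q v ∉ D) → ∃ (h : (Fin d → ℂ) → V) (β : X → V) (w : X → Cub Vb),
      DifferentiableOn ℂ h (ball v₀ ρ) ∧ Lw a (q v₀) β w ∧ (∀ᶠ v in 𝓝 v₀, β (q v) = h v) ∧
      ∀ G : V ≃L[ℂ] V, IsPolz Q (π a (f (q v₀))) G →
        (∀ v ∈ ball v₀ (ρ / 2), ‖fderiv ℂ (fun u => G (h u)) v‖ ≤ B) ∧
        ∀ Gb : Vb ≃L[ℂ] Vb, IsPolz QB (ϖ a (f (q v₀))) Gb →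
        ∀ m : Fin d → (V →L[ℂ] ℂ), (∀ i, ‖m i‖ ≤ 1) →
          ‖minor m (fun u => G (h u)) v₀‖ ^ M *
            ‖(w (q v₀)).compContinuousLinearMap fun _ => (Gb.symm : Vb →L[ℂ] Vb)‖ ≤ B
  third : ∀ a x β, L a x β → (∃ v, ∀ D ∈ 𝒜, u a x β v ∉ D) →
    ∃ φ : Vb → Vb →L[ℂ] Vb →L[ℂ] Vb →L[ℂ] ℂ, H349.D.IsThird {v | ∃ D ∈ 𝒜, u a x β v ∈ D} φ ∧
    ∀ v, (∀ D ∈ 𝒜, u a x β v ∉ D) → ∀ β' w', Lw a (u a x β v) β' w' →
      (∀ v', u a (u a x β v) β' v' = u a x β (v + v')) →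
      ∀ᶠ v' in 𝓝 v, ∀ x₁ x₂ x₃, w' (u a x β v') ![x₁, x₂, x₃] = φ v' x₁ x₂ x₃

/-- The Gauss map has rank at least `r` at some point of the fibre. -/
def GaussGE {d : ℕ} (f : X → Y) {ι : Type} (U : ι → Set Y)
    (L : ι → X → (X → V) → Prop) (r : ℕ) (y : Y) : Prop :=
  ∀ a, y ∈ U a → ∃ (q : (Fin d → ℂ) → X) (v₀ : Fin d → ℂ),
    ContMDiffAt 𝓘(ℂ, Fin d → ℂ) 𝓘(ℂ, E) ω q v₀ ∧ (∀ᶠ v in 𝓝 v₀, f (q v) = y) ∧
    ∀ β, L a (q v₀) β → ∃ m, RankAt r (fun v => β (q v)) v₀ m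

end Orb

/-- In some model of `f` at `y`, the covering `core Γ m` of the fibre is immersed in its Albanese
torus. -/
def IsImmE (n p d m : ℕ) {Z Y : Type} [TopologicalSpace Z] [ChartedSpace (Cm n) Z]
    [TopologicalSpace Y] [ChartedSpace (Cm p) Y] (f : Z → Y) (y : Y) : Prop :=
  ∃ (E Γ : Type) (_ : TopologicalSpace E) (_ : T2Space E) (_ : SimplyConnectedSpace E)
    (_ : Group Γ) (_ : MulAction Γ E) (_ : ContinuousConstSMul Γ E) (𝓕 : TK.Fam p d E Γ)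
    (q : Cm p → E → Z) (χ : OpenPartialHomeomorph Y (Cm p)) (t : Cm p) (ht : t ∈ 𝓕.T)
    (_ : (core Γ m).FiniteIndex), TK.Model (n := n) f 𝓕 χ q ∧ χ.symm t = y ∧
      ∀ i, ∀ z ∈ ball (0 : Cm d) 3, ∀ ξ : Cm d, ξ ≠ 0 → ∃ h c,
        TK.Add (sub (𝓕.at t ht) (core Γ m)) h c ∧
        fderiv ℂ (fun z => h ((sub (𝓕.at t ht) (core Γ m)).σ i z)) z ξ ≠ 0

/-- **UG0**: `IsImmE` is an open condition. -/
def ImmOpenStmt : Prop :=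
  ∀ (p d m : ℕ) (Z Y : Type) [TopologicalSpace Z] [T2Space Z] [ChartedSpace (Cm (p + d)) Z]
    [IsManifold 𝓘(ℂ, Cm (p + d)) ω Z] [TopologicalSpace Y] [T2Space Y] [ChartedSpace (Cm p) Y]
    [IsManifold 𝓘(ℂ, Cm p) ω Y] (f : Z → Y) (S : Set Y)
    (w : Chart (p + d) Z → Cm (p + d) → Matrix (Fin (p + d)) (Fin (p + d)) ℂ), 0 < d →
    ContMDiff 𝓘(ℂ, Cm (p + d)) 𝓘(ℂ, Cm p) ω f →
    IsProperFibration (n := p + d) (p := p) f S → IsPreconnected Sᶜ → IsKahler w →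
    ∀ y ∉ S, IsImmE (p + d) p d m f y → ∀ᶠ y' in 𝓝 y, IsImmE (p + d) p d m f y'

/-- **UG0'**: a finite étale covering `F` of the fibre, with at most `k` sheets, which is immersed in
a torus. -/
def FibImmStmt : Prop :=
  ∀ (p d k : ℕ) (Z Y : Type) [TopologicalSpace Z] [T2Space Z] [ChartedSpace (Cm (p + d)) Z]
    [IsManifold 𝓘(ℂ, Cm (p + d)) ω Z] [TopologicalSpace Y] [T2Space Y] [ChartedSpace (Cm p) Y]
    [IsManifold 𝓘(ℂ, Cm p) ω Y] (f : Z → Y) (S : Set Y), 0 < d →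
    ContMDiff 𝓘(ℂ, Cm (p + d)) 𝓘(ℂ, Cm p) ω f →
    IsProperFibration (n := p + d) (p := p) f S →
    ∀ y ∉ S, ∀ (F : Type) [TopologicalSpace F] [T2Space F] [ChartedSpace (Cm d) F] (i : F → Z),
      H511.Surf.IsFibre (Cm (p + d)) (Cm d) f y i → (∀ x, (i ⁻¹' {x}).encard ≤ k) →
      IsGen d F → IsImmE (p + d) p d k f y

/-- **UG** (geometry): as `AlbEStmt`, with the action of `𝔟`; the rank `r` of the Gauss map is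
`d - dim 𝔟` (Ueno). -/
def OrbMStmt : Prop :=
  ∀ (p d m r : ℕ) (Z Y : Type) [TopologicalSpace Z] [T2Space Z] [ChartedSpace (Cm (p + d)) Z]
    [IsManifold 𝓘(ℂ, Cm (p + d)) ω Z] [TopologicalSpace Y] [T2Space Y] [ChartedSpace (Cm p) Y]
    [IsManifold 𝓘(ℂ, Cm p) ω Y] (f : Z → Y) (S : Set Y)
    (w : Chart (p + d) Z → Cm (p + d) → Matrix (Fin (p + d)) (Fin (p + d)) ℂ), 0 < d →
    ContMDiff 𝓘(ℂ, Cm (p + d)) 𝓘(ℂ, Cm p) ω f →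
    IsProperFibration (n := p + d) (p := p) f S → IsPreconnected Sᶜ → IsKahler w →
    (∀ y ∉ S, TK.TE.NDegE (p + d) p d m r f y) →
    (∀ y ∉ S, ¬ TK.TE.NDegE (p + d) p d m (r + 1) f y) →
    (∀ y ∉ S, IsImmE (p + d) p d m f y) → Sᶜ.Nonempty →
    ∃ (g n b nb : ℕ) (Q : (Fin n → ℝ) → (Fin n → ℝ) → ℝ) (QB : (Fin nb → ℝ) → (Fin nb → ℝ) → ℝ)
      (ι : Type) (U : ι → Set Y) (π : ι → Y → ((Fin n → ℝ) ≃L[ℝ] EuclideanSpace ℂ (Fin g)))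
      (ϖ : ι → Y → ((Fin nb → ℝ) ≃L[ℝ] EuclideanSpace ℂ (Fin b)))
      (j : ι → Y → EuclideanSpace ℂ (Fin b) →L[ℂ] EuclideanSpace ℂ (Fin g))
      (ℓ : ι → Y → EuclideanSpace ℂ (Fin g) →L[ℂ] EuclideanSpace ℂ (Fin b))
      (L : ι → Z → (Z → EuclideanSpace ℂ (Fin g)) → Prop)
      (u : ι → Z → (Z → EuclideanSpace ℂ (Fin g)) → EuclideanSpace ℂ (Fin b) → Z),
      IsOrbM (Cm (p + d)) (Cm p) d (KTame w) f S Q QB U π ϖ j ℓ L u ∧ d ≤ r + b ∧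
      ∀ y ∉ S, GaussGE (Cm (p + d)) (d := d) f U L r y

section Blocks

/-- **UL** (gluing: theta data of the orbits; `H125`, `H152`, `H969`, `H383` with parameters `x ∈ X`). -/
def OrbDStmt : Prop :=
  ∀ (p d n nb g b : ℕ) (X Y : Type) [TopologicalSpace X] [T2Space X] [ConnectedSpace X]
    [ChartedSpace (Cm (p + d)) X] [IsManifold 𝓘(ℂ, Cm (p + d)) ω X] [TopologicalSpace Y]
    [T2Space Y] [ChartedSpace (Cm p) Y] [IsManifold 𝓘(ℂ, Cm p) ω Y] (T : Tame (Cm d) X)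
    (f : X → Y) (S : Set Y) (Q : (Fin n → ℝ) → (Fin n → ℝ) → ℝ)
    (QB : (Fin nb → ℝ) → (Fin nb → ℝ) → ℝ) (ι : Type) (U : ι → Set Y)
    (π : ι → Y → ((Fin n → ℝ) ≃L[ℝ] EuclideanSpace ℂ (Fin g)))
    (ϖ : ι → Y → ((Fin nb → ℝ) ≃L[ℝ] EuclideanSpace ℂ (Fin b)))
    (j : ι → Y → EuclideanSpace ℂ (Fin b) →L[ℂ] EuclideanSpace ℂ (Fin g))
    (ℓ : ι → Y → EuclideanSpace ℂ (Fin g) →L[ℂ] EuclideanSpace ℂ (Fin b))
    (L : ι → X → (X → EuclideanSpace ℂ (Fin g)) → Prop)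
    (u : ι → X → (X → EuclideanSpace ℂ (Fin g)) → EuclideanSpace ℂ (Fin b) → X)
    (𝒜 : Set (Set X)), 0 < d →
    ContMDiff 𝓘(ℂ, Cm (p + d)) 𝓘(ℂ, Cm p) ω f → IsClosed S → IsPreconnected (f ⁻¹' S)ᶜ →
    IsOrbM (Cm (p + d)) (Cm p) d T f S Q QB U π ϖ j ℓ L u → 𝒜.Finite →
    (∀ D ∈ 𝒜, J.IsPrime (Cm (p + d)) D) →
    ∃ Lw : ι → X → (X → EuclideanSpace ℂ (Fin g)) → (X → Cub (EuclideanSpace ℂ (Fin b))) → Prop,
      IsOrbD (Cm (p + d)) d T f S Q QB U π ϖ j ℓ L u 𝒜 Lw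

/-- **UA** (algebra, helper511): the cubic forms on `V`. -/
def AlgStmt : Prop :=
  ∀ (d n nb : ℕ) (E E' : Type) [NormedAddCommGroup E] [NormedSpace ℂ E] [NormedAddCommGroup E']
    [NormedSpace ℂ E'] (X Y : Type) [TopologicalSpace X] [ChartedSpace E X]
    [IsManifold 𝓘(ℂ, E) ω X] [TopologicalSpace Y] [ChartedSpace E' Y] [IsManifold 𝓘(ℂ, E') ω Y]
    (V Vb : Type) [NormedAddCommGroup V] [InnerProductSpace ℂ V] [FiniteDimensional ℂ V]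
    [NormedAddCommGroup Vb] [InnerProductSpace ℂ Vb] [FiniteDimensional ℂ Vb]
    (T : Tame (Fin d → ℂ) X) (f : X → Y) (S : Set Y) (Q : (Fin n → ℝ) → (Fin n → ℝ) → ℝ)
    (QB : (Fin nb → ℝ) → (Fin nb → ℝ) → ℝ) (ι : Type) (U : ι → Set Y)
    (π : ι → Y → ((Fin n → ℝ) ≃L[ℝ] V)) (ϖ : ι → Y → ((Fin nb → ℝ) ≃L[ℝ] Vb))
    (j : ι → Y → Vb →L[ℂ] V) (ℓ : ι → Y → V →L[ℂ] Vb) (L : ι → X → (X → V) → Prop)
    (u : ι → X → (X → V) → Vb → X) (𝒜 : Set (Set X))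
    (Lw : ι → X → (X → V) → (X → Cub Vb) → Prop), ContMDiff 𝓘(ℂ, E) 𝓘(ℂ, E') ω f →
    IsOrbM E E' d T f S Q QB U π ϖ j ℓ L u → IsOrbD E d T f S Q QB U π ϖ j ℓ L u 𝒜 Lw →
    H511.UD.IsUD E E' d T f S Q U π 𝒜 fun a x β W => ∃ w, Lw a x β w ∧
      W = fun z => (w z).compContinuousLinearMap fun _ => ℓ a (f z)

/-- **UK** (helper349): sections on (a finite étale covering `F` of) the fibre over `y`; `r` = the
rank of the Gauss map. -/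
def KodRUStmt : Prop :=
  ∀ (p d n nb g b r s : ℕ) (X Y : Type) [TopologicalSpace X] [T2Space X] [CompactSpace X]
    [ChartedSpace (Cm (p + d)) X] [IsManifold 𝓘(ℂ, Cm (p + d)) ω X] [TopologicalSpace Y]
    [T2Space Y] [ChartedSpace (Cm p) Y] [IsManifold 𝓘(ℂ, Cm p) ω Y] (T : Tame (Cm d) X)
    (f : X → Y) (Δ : Set X → ℝ) (S : Set Y) (Q : (Fin n → ℝ) → (Fin n → ℝ) → ℝ)
    (QB : (Fin nb → ℝ) → (Fin nb → ℝ) → ℝ) (ι : Type) (U : ι → Set Y)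
    (π : ι → Y → ((Fin n → ℝ) ≃L[ℝ] EuclideanSpace ℂ (Fin g)))
    (ϖ : ι → Y → ((Fin nb → ℝ) ≃L[ℝ] EuclideanSpace ℂ (Fin b)))
    (j : ι → Y → EuclideanSpace ℂ (Fin b) →L[ℂ] EuclideanSpace ℂ (Fin g))
    (ℓ : ι → Y → EuclideanSpace ℂ (Fin g) →L[ℂ] EuclideanSpace ℂ (Fin b))
    (L : ι → X → (X → EuclideanSpace ℂ (Fin g)) → Prop)
    (u : ι → X → (X → EuclideanSpace ℂ (Fin g)) → EuclideanSpace ℂ (Fin b) → X)
    (Lw : ι → X → (X → EuclideanSpace ℂ (Fin g)) → (X → Cub (EuclideanSpace ℂ (Fin b))) → Prop)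
    (y : Y) (F : Type) [TopologicalSpace F] [T2Space F] [ChartedSpace (Cm d) F] (i : F → X), 0 < d →
    ContMDiff 𝓘(ℂ, Cm (p + d)) 𝓘(ℂ, Cm p) ω f →
    IsProperFibration (n := p + d) (p := p) f S → J.IsSNC (Cm (p + d)) Δ →
    IsOrbM (Cm (p + d)) (Cm p) d T f S Q QB U π ϖ j ℓ L u →
    IsOrbD (Cm (p + d)) d T f S Q QB U π ϖ j ℓ L u {D | Δ D ≠ 0} Lw → y ∉ S →
    (∀ D, Δ D ≠ 0 → ¬ f ⁻¹' {y} ⊆ D) → d ≤ r + b → GaussGE (Cm (p + d)) (d := d) f U L r y →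
    ¬ H511.UD.RankUD (Cm (p + d)) (d := d) f U {D | Δ D ≠ 0} (fun a x β W => ∃ w, Lw a x β w ∧
      W = fun z => (w z).compContinuousLinearMap fun _ => ℓ a (f z)) (s + 1) y →
    H511.Surf.IsFibre (Cm (p + d)) (Cm d) f y i →
    TZ.S.kodR (Cm (p + d)) (Cm d) i Δ ≤ ((s : ℕ∞) : WithBot ℕ∞)

end Blocks

/-- The very general fibres of `f` have finite étale coverings with at most `k` sheets which are
immersed in tori. -/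
def GenImm (p d k : ℕ) {X Y : Type} [TopologicalSpace X] [ChartedSpace (Cm (p + d)) X]
    [TopologicalSpace Y] [ChartedSpace (Cm p) Y] (f : X → Y) : Prop :=
  ∃ H : ℕ → Set Y, (∀ k, IsThinSet (Cm p) (H k)) ∧ ∀ y, (∀ k, y ∉ H k) →
    ∃ (F : Type) (_ : TopologicalSpace F) (_ : T2Space F) (_ : ChartedSpace (Cm d) F) (i : F → X),
      H511.Surf.IsFibre (Cm (p + d)) (Cm d) f y i ∧ (∀ x, (i ⁻¹' {x}).encard ≤ k) ∧ IsGen d F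

/-- **T-UD**, the goal (stage 2). -/
def TUDStmt : Prop :=
  ∀ (p d k : ℕ) (X Y : Type) [tX : TopologicalSpace X] [cX : ChartedSpace (Cm (p + d)) X]
    [tY : TopologicalSpace Y] [cY : ChartedSpace (Cm p) Y] (f : X → Y) (Δ : Set X → ℝ), 0 < d →
    H511.Surf.IsFibration (Cm (p + d)) (Cm p) f Δ →
    (∃ w : Chart (p + d) X → Cm (p + d) → Matrix (Fin (p + d)) (Fin (p + d)) ℂ, IsKahler w) →
    GenImm p d k f →
    ∃ H : ℕ → Set Y, (∀ k, IsThinSet (Cm p) (H k)) ∧ ∀ y, (∀ k, y ∉ H k) →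
      ∀ (F : Type) [TopologicalSpace F] [T2Space F] [ChartedSpace (Cm d) F] (i : F → X),
        H511.Surf.IsFibre (Cm (p + d)) (Cm d) f y i →
        TZ.S.kodR (Cm (p + d)) (Cm d) i Δ + TZ.S.kodF (p + d) p Δ (id : X → X) f ≤
          TZ.S.kodX (Cm (p + d)) Δ

end Vale.Agent.P281.H303.UD
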