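import Vale.Agent.P281.MF.Hol

/-!
# P281 (helper303): orbits of translations in a slice

`h : ball(v₀, r) → V` is holomorphic, `𝔟 ≤ V` is tangent to its image everywhere. Then the image
contains the ball of radius `c |J|²` of `h v₀ + 𝔟`, `J` any minor of the derivative at `v₀`.
-/

open Set Filter Metric
open scoped Topology

set_option linter.all false

noncomputable section

namespace Vale.Agent.P281.H303.UD

variable {E V : Type} [NormedAddCommGroup E] [NormedSpace ℂ E] [FiniteDimensional ℂ E]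
  [NormedAddCommGroup V] [NormedSpace ℂ V]

/-- an injective endomorphism is an equivalence -/
theorem exists_equiv {L : E →L[ℂ] E} (hL : Function.Injective L) :
    ∃ e : E ≃L[ℂ] E, (e : E →L[ℂ] E) = L := by
  refine ⟨(LinearEquiv.ofInjectiveEndo (L : E →ₗ[ℂ] E) hL).toContinuousLinearEquiv, ?_⟩
  ext v
  rfl

theorem inj_of_bound {L : E →L[ℂ] E} {B : ℝ} (h : ∀ ξ, ‖ξ‖ ≤ B * ‖L ξ‖) :
    Function.Injective L := by
  intro a b hab
  have h1 := h (a - b)
  rw [map_sub, hab, sub_self, norm_zero, mul_zero] at h1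
  exact sub_eq_zero.1 (norm_le_zero_iff.1 h1)

/-- the derivative varies slowly -/
theorem fderiv_close {E V : Type} [NormedAddCommGroup E] [NormedSpace ℂ E]
    [FiniteDimensional ℂ E] [NormedAddCommGroup V] [NormedSpace ℂ V] [CompleteSpace V] {H : E → V} {v₀ : E} {r A : ℝ} (hr : 0 < r) (hA : 0 ≤ A)
    (hH : DifferentiableOn ℂ H (ball v₀ r)) (hbd : ∀ v ∈ ball v₀ r, ‖fderiv ℂ H v‖ ≤ A) {v : E}
    (hv : v ∈ ball v₀ r) : ‖fderiv ℂ H v - fderiv ℂ H v₀‖ ≤ 2 * A / r * ‖v - v₀‖ := by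
  have h1 : DifferentiableOn ℂ (fderiv ℂ H) (ball v₀ r) := by
    intro z hz
    have h2 : AnalyticOnNhd ℂ H (ball v₀ r) := MF.analyticOnNhd_of_differentiableOn isOpen_ball hH
    exact (h2 z hz).fderiv.differentiableAt.differentiableWithinAt
  have h2 : MapsTo (fderiv ℂ H) (ball v₀ r) (closedBall (fderiv ℂ H v₀) (2 * A)) := by
    intro z hz
    rw [mem_closedBall, dist_eq_norm]
    calc ‖fderiv ℂ H z - fderiv ℂ H v₀‖ ≤ ‖fderiv ℂ H z‖ + ‖fderiv ℂ H v₀‖ := norm_sub_le _ _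
      _ ≤ A + A := add_le_add (hbd z hz) (hbd v₀ (mem_ball_self hr))
      _ = 2 * A := by ring
  have h3 := Complex.dist_le_div_mul_dist_of_mapsTo_ball h1 h2 hv
  rwa [dist_eq_norm, dist_eq_norm] at h3

/-- quantitative inverse function theorem -/
theorem inverse {H : E → E} {v₀ : E} {r A B : ℝ} (hr : 0 < r)
    (hA : 0 < A) (hB : 0 < B)
    (hH : DifferentiableOn ℂ H (ball v₀ r)) (hbd : ∀ v ∈ ball v₀ r, ‖fderiv ℂ H v‖ ≤ A)
    (hinv : ∀ ξ, ‖ξ‖ ≤ B * ‖fderiv ℂ H v₀ ξ‖) :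
    ∃ g : E → E, (∀ z ∈ ball (H v₀) (min (r / 4) (r / (8 * A * B)) / (2 * B)),
      g z ∈ ball v₀ (r / 2) ∧ H (g z) = z ∧ (∀ ξ, ‖ξ‖ ≤ 2 * B * ‖fderiv ℂ H (g z) ξ‖) ∧
        DifferentiableAt ℂ g z) ∧ g (H v₀) = v₀ := by
  have : CompleteSpace E := FiniteDimensional.complete ℂ E
  set δ := min (r / 4) (r / (8 * A * B)) with hδ
  have hδ0 : 0 < δ := lt_min (by positivity) (by positivity)
  have hδ1 : 2 * δ ≤ r / 2 := by
    have := min_le_left (r / 4) (r / (8 * A * B))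
    linarith
  have hδ2 : 2 * A / r * (2 * δ) ≤ 1 / (2 * B) := by
    have h1 : δ ≤ r / (8 * A * B) := min_le_right _ _
    calc 2 * A / r * (2 * δ) ≤ 2 * A / r * (2 * (r / (8 * A * B))) := by gcongr
      _ = 1 / (2 * B) := by field_simp; ring
  have hsub : ball v₀ (2 * δ) ⊆ ball v₀ (r / 2) := ball_subset_ball hδ1
  have hsub' : ball v₀ (2 * δ) ⊆ ball v₀ r := hsub.trans (ball_subset_ball (by linarith))
  have hclose : ∀ v ∈ ball v₀ (2 * δ), ‖fderiv ℂ H v - fderiv ℂ H v₀‖ ≤ 1 / (2 * B) := by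
    intro v hv
    refine (fderiv_close hr hA.le hH hbd (hsub' hv)).trans (le_trans ?_ hδ2)
    have : ‖v - v₀‖ ≤ 2 * δ := by
      rw [← dist_eq_norm]; exact (mem_ball.1 hv).le
    gcongr
  have hlow : ∀ v ∈ ball v₀ (2 * δ), ∀ ξ, ‖ξ‖ ≤ 2 * B * ‖fderiv ℂ H v ξ‖ := by
    intro v hv ξ
    have h1 := hclose v hv
    have h2 : ‖(fderiv ℂ H v - fderiv ℂ H v₀) ξ‖ ≤ 1 / (2 * B) * ‖ξ‖ :=
      (ContinuousLinearMap.le_opNorm _ _).trans (by gcongr)
    have h3 : ‖fderiv ℂ H v₀ ξ‖ ≤ ‖fderiv ℂ H v ξ‖ + 1 / (2 * B) * ‖ξ‖ := by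
      calc ‖fderiv ℂ H v₀ ξ‖ = ‖fderiv ℂ H v ξ - (fderiv ℂ H v - fderiv ℂ H v₀) ξ‖ := by
            congr 1
            simp
        _ ≤ ‖fderiv ℂ H v ξ‖ + ‖(fderiv ℂ H v - fderiv ℂ H v₀) ξ‖ := norm_sub_le _ _
        _ ≤ _ := by gcongr
    have h4 := (hinv ξ).trans (mul_le_mul_of_nonneg_left h3 hB.le)
    have h5 : B * (‖fderiv ℂ H v ξ‖ + 1 / (2 * B) * ‖ξ‖) =
        B * ‖fderiv ℂ H v ξ‖ + ‖ξ‖ / 2 := by field_simp
    rw [h5] at h4
    linarith
  obtain ⟨L, hL⟩ := exists_equiv (inj_of_bound hinv)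
  have hN : ‖(L.symm : E →L[ℂ] E)‖ ≤ B := by
    refine ContinuousLinearMap.opNorm_le_bound _ hB.le fun x => ?_
    have h1 := hinv (L.symm x)
    rw [← hL] at h1
    simpa using h1
  let c : NNReal := ⟨1 / (2 * B), by positivity⟩
  have happ : ApproximatesLinearOn H (L : E →L[ℂ] E) (ball v₀ (2 * δ)) c := by
    intro x hx y hy
    rw [hL]
    exact (convex_ball v₀ (2 * δ)).norm_image_sub_le_of_norm_fderiv_le'
      (fun z hz => (hH z (hsub' hz)).differentiableAt (isOpen_ball.mem_nhds (hsub' hz)))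
      hclose hy hx
  have hN0 : Subsingleton E ∨ 0 < ‖(L.symm : E →L[ℂ] E)‖ := by
    rcases subsingleton_or_nontrivial E with hE | hE
    · exact Or.inl hE
    · right
      rw [norm_pos_iff]
      intro h0
      obtain ⟨x, hx⟩ := exists_ne (0 : E)
      apply hx
      have h1 : L.symm (L x) = 0 := by
        have := congrArg (fun T : E →L[ℂ] E => T (L x)) h0
        simpa using this
      rw [L.symm_apply_apply] at h1
      exact h1
  have hc : Subsingleton E ∨ c < ‖(L.symm : E →L[ℂ] E)‖₊⁻¹ := by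
    rcases hN0 with hE | h0
    · exact Or.inl hE
    · right
      have h1 : 1 / (2 * B) < ‖(L.symm : E →L[ℂ] E)‖⁻¹ := by
        rw [one_div]
        exact inv_strictAnti₀ h0 (by linarith)
      exact_mod_cast h1
  let e := happ.toOpenPartialHomeomorph H (ball v₀ (2 * δ)) hc isOpen_ball
  have hes : e.source = ball v₀ (2 * δ) := rfl
  have hee : (e : E → E) = H := rfl
  have hv₀ : v₀ ∈ e.source := mem_ball_self (by positivity)
  have htarget : ∀ z ∈ ball (H v₀) (δ / (2 * B)), z ∈ e.target := by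
    intro z hz
    rcases hN0 with hE | h0
    · have h2 : z = e v₀ := Subsingleton.elim _ _
      rw [h2]
      exact e.map_source hv₀
    · have h1 := happ.closedBall_subset_target (ε := δ) (b := v₀) hc isOpen_ball hδ0.le
        (closedBall_subset_ball (by linarith))
      refine h1 ?_
      rw [mem_closedBall]
      refine (mem_ball.1 hz).le.trans ?_
      have h2 : (1 / B : ℝ) ≤ ‖(L.symm : E →L[ℂ] E)‖⁻¹ := by
        rw [one_div]
        exact inv_anti₀ h0 hN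
      show δ / (2 * B) ≤ (‖(L.symm : E →L[ℂ] E)‖⁻¹ - 1 / (2 * B)) * δ
      have h3 : δ / (2 * B) = (1 / B - 1 / (2 * B)) * δ := by field_simp; ring
      rw [h3]
      gcongr
  refine ⟨e.symm, fun z hz => ?_, ?_⟩
  · have h1 := e.map_target (htarget z hz)
    have h2 : H (e.symm z) = z := e.right_inv (htarget z hz)
    refine ⟨hsub h1, h2, hlow _ h1, ?_⟩
    obtain ⟨L', hL'⟩ := exists_equiv (inj_of_bound (hlow _ h1))
    have h3 : HasFDerivAt e (L' : E →L[ℂ] E) (e.symm z) := by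
      rw [hL']
      exact ((hH _ (hsub' h1)).differentiableAt (isOpen_ball.mem_nhds (hsub' h1))).hasFDerivAt
    exact (e.hasFDerivAt_symm (htarget z hz) h3).differentiableAt
  · exact e.left_inv hv₀

/-- `|det L| |ξ| ≤ C |L ξ|` for `|L| ≤ A` -/
theorem det_bound (E : Type) [NormedAddCommGroup E] [NormedSpace ℂ E] [FiniteDimensional ℂ E]
    (A : ℝ) : ∃ C : ℝ, 0 < C ∧ ∀ L : E →L[ℂ] E, ‖L‖ ≤ A → ∀ ξ, ‖L.det‖ * ‖ξ‖ ≤ C * ‖L ξ‖ := by
  classical
  let b := Module.finBasis ℂ E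
  let M : (E →L[ℂ] E) → Matrix (Fin (Module.finrank ℂ E)) (Fin (Module.finrank ℂ E)) ℂ :=
    fun L => LinearMap.toMatrix b b (L : E →ₗ[ℂ] E)
  let T : (E →L[ℂ] E) → (E →L[ℂ] E) := fun L =>
    LinearMap.toContinuousLinearMap (Matrix.toLin b b (M L).adjugate)
  have hM : Continuous M := by
    have h1 : Continuous fun L : E →L[ℂ] E =>
        ((LinearMap.toMatrix b b).toLinearMap ∘ₗ
          (ContinuousLinearMap.coeLM ℂ : (E →L[ℂ] E) →ₗ[ℂ] (E →ₗ[ℂ] E))) L :=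
      LinearMap.continuous_of_finiteDimensional _
    exact h1
  have hT : Continuous T := by
    have h1 : Continuous fun A : Matrix (Fin (Module.finrank ℂ E)) (Fin (Module.finrank ℂ E)) ℂ =>
        ((LinearMap.toContinuousLinearMap (𝕜 := ℂ) (E := E) (F' := E)).toLinearMap ∘ₗ
          (Matrix.toLin b b).toLinearMap) A :=
      LinearMap.continuous_of_finiteDimensional _
    exact h1.comp hM.matrix_adjugate
  have hprop : ProperSpace (E →L[ℂ] E) := FiniteDimensional.proper ℂ _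
  obtain ⟨C, hC⟩ := (isCompact_closedBall (0 : E →L[ℂ] E) A).exists_bound_of_continuousOn
    hT.continuousOn
  refine ⟨max C 1, lt_max_of_lt_right one_pos, fun L hL ξ => ?_⟩
  have h1 : T L (L ξ) = L.det • ξ := by
    show Matrix.toLin b b (M L).adjugate (L ξ) = L.det • ξ
    have h2 : (L : E →ₗ[ℂ] E) = Matrix.toLin b b (M L) := (Matrix.toLin_toMatrix b b _).symm
    have h3 : L ξ = Matrix.toLin b b (M L) ξ := by
      rw [← h2]
      rfl
    rw [h3, ← LinearMap.comp_apply, ← Matrix.toLin_mul b b b, Matrix.adjugate_mul]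
    have h4 : (M L).det = L.det := by
      show (LinearMap.toMatrix b b (L : E →ₗ[ℂ] E)).det = _
      rw [LinearMap.det_toMatrix]
    rw [h4, map_smul, Matrix.toLin_one]
    simp
  calc ‖L.det‖ * ‖ξ‖ = ‖T L (L ξ)‖ := by rw [h1, norm_smul]
    _ ≤ ‖T L‖ * ‖L ξ‖ := ContinuousLinearMap.le_opNorm _ _
    _ ≤ max C 1 * ‖L ξ‖ := by
        refine mul_le_mul_of_nonneg_right (le_trans ?_ (le_max_left _ _)) (norm_nonneg _)
        exact hC L (by simpa using hL)

/-- the orbits of the translations by `𝔟` in the slice `h` -/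
theorem orbit_aux [CompleteSpace V] {h : E → V} {v₀ : E} {r A B : ℝ} (hr : 0 < r) (hA : 0 < A)
    (hB : 0 < B) (hh : DifferentiableOn ℂ h (ball v₀ r))
    (hbd : ∀ v ∈ ball v₀ r, ‖fderiv ℂ h v‖ ≤ A) (m : V →L[ℂ] E) (hm : ‖m‖ ≤ 1)
    (hinv : ∀ ξ, ‖ξ‖ ≤ B * ‖m (fderiv ℂ h v₀ ξ)‖) (𝔟 : Submodule ℂ V)
    (h𝔟 : ∀ v ∈ ball v₀ r, Function.Injective (fderiv ℂ h v) → ∀ x ∈ 𝔟, ∃ ξ, fderiv ℂ h v ξ = x) :
    ∃ k : V → E, k 0 = v₀ ∧ ∀ x ∈ 𝔟, ‖x‖ < min (r / 4) (r / (8 * A * B)) / (2 * B) →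
      k x ∈ ball v₀ (r / 2) ∧ h (k x) = h v₀ + x ∧ DifferentiableAt ℂ k x := by
  let H : E → E := fun v => m (h v)
  have hH : DifferentiableOn ℂ H (ball v₀ r) := m.differentiable.comp_differentiableOn hh
  have hfd : ∀ v ∈ ball v₀ r, fderiv ℂ H v = m.comp (fderiv ℂ h v) := by
    intro v hv
    exact ((m.hasFDerivAt).comp v
      ((hh v hv).differentiableAt (isOpen_ball.mem_nhds hv)).hasFDerivAt).fderiv
  have hbd' : ∀ v ∈ ball v₀ r, ‖fderiv ℂ H v‖ ≤ A := by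
    intro v hv
    rw [hfd v hv]
    calc ‖m.comp (fderiv ℂ h v)‖ ≤ ‖m‖ * ‖fderiv ℂ h v‖ := ContinuousLinearMap.opNorm_comp_le _ _
      _ ≤ 1 * A := mul_le_mul hm (hbd v hv) (norm_nonneg _) zero_le_one
      _ = A := one_mul A
  have hinv' : ∀ ξ, ‖ξ‖ ≤ B * ‖fderiv ℂ H v₀ ξ‖ := by
    intro ξ
    rw [hfd v₀ (mem_ball_self hr)]
    exact hinv ξ
  obtain ⟨g, hg, hg0⟩ := inverse hr hA hB hH hbd' hinv'
  set ρ := min (r / 4) (r / (8 * A * B)) / (2 * B) with hρ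
  refine ⟨fun x => g (H v₀ + m x), by simp [hg0], fun x hx hxρ => ?_⟩
  have hmx : ∀ s : ℝ, s ∈ Icc (0 : ℝ) 1 → H v₀ + (s : ℂ) • m x ∈ ball (H v₀) ρ := by
    intro s hs
    rw [mem_ball, dist_eq_norm, add_sub_cancel_left, norm_smul, Complex.norm_real,
      Real.norm_of_nonneg hs.1]
    calc s * ‖m x‖ ≤ 1 * ‖x‖ := by
          refine mul_le_mul hs.2 ?_ (norm_nonneg _) zero_le_one
          exact (m.le_opNorm x).trans (by
            calc ‖m‖ * ‖x‖ ≤ 1 * ‖x‖ := by gcongr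
              _ = ‖x‖ := one_mul _)
      _ < ρ := by rwa [one_mul]
  have hball : ∀ s : ℝ, s ∈ Icc (0 : ℝ) 1 →
      g (H v₀ + (s : ℂ) • m x) ∈ ball v₀ r := fun s hs =>
    ball_subset_ball (by linarith) (hg _ (hmx s hs)).1
  have hder : ∀ s : ℝ, s ∈ Icc (0 : ℝ) 1 →
      HasDerivAt (fun s : ℝ => h (g (H v₀ + (s : ℂ) • m x)) - (s : ℂ) • x) 0 s := by
    intro s hs
    obtain ⟨h1, h2, h3, h4⟩ := hg _ (hmx s hs)
    set z := H v₀ + (s : ℂ) • m x with hz
    have h5 := hball s hs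
    have hd : DifferentiableAt ℂ h (g z) := (hh _ h5).differentiableAt (isOpen_ball.mem_nhds h5)
    have hdH : DifferentiableAt ℂ H (g z) := (hH _ h5).differentiableAt (isOpen_ball.mem_nhds h5)
    -- `dH (dg (m x)) = m x`
    have h6 : (fderiv ℂ H (g z)).comp (fderiv ℂ g z) = ContinuousLinearMap.id ℂ E := by
      have h7 : HasFDerivAt (H ∘ g) ((fderiv ℂ H (g z)).comp (fderiv ℂ g z)) z :=
        hdH.hasFDerivAt.comp z h4.hasFDerivAt
      have h8 : H ∘ g =ᶠ[𝓝 z] id := by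
        filter_upwards [isOpen_ball.mem_nhds (hmx s hs)] with z' hz'
        exact (hg z' hz').2.1
      exact (h7.congr_of_eventuallyEq h8.symm).unique (hasFDerivAt_id z)
    have hinjg : Function.Injective (fderiv ℂ h (g z)) := by
      have h6' := inj_of_bound h3
      rw [hfd _ h5, ContinuousLinearMap.coe_comp'] at h6'
      exact h6'.of_comp
    obtain ⟨η, hη⟩ := h𝔟 _ h5 hinjg x hx
    have h7 : fderiv ℂ g z (m x) = η := by
      have h8 : fderiv ℂ H (g z) (fderiv ℂ g z (m x)) = m x := by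
        have := congrArg (fun T : E →L[ℂ] E => T (m x)) h6
        simpa using this
      have h9 : fderiv ℂ H (g z) η = m x := by
        rw [hfd _ h5, ContinuousLinearMap.comp_apply, hη]
      exact inj_of_bound h3 (h8.trans h9.symm)
    have h8 : HasDerivAt (fun s : ℝ => H v₀ + (s : ℂ) • m x) (m x) s := by
      have h9 : HasDerivAt (fun s : ℝ => (s : ℂ) • m x) ((1 : ℂ) • m x) s :=
        (Complex.ofRealCLM.hasDerivAt (x := s)).smul_const (m x)
      simpa using h9.const_add (H v₀)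
    have h9 : HasDerivAt (fun s : ℝ => g (H v₀ + (s : ℂ) • m x)) η s := by
      have h12 := (h4.hasFDerivAt.restrictScalars ℝ).comp_hasDerivAt s h8
      have h13 : (fderiv ℂ g z).restrictScalars ℝ (m x) = η := h7
      rw [h13] at h12
      exact h12
    have h10 : HasDerivAt (fun s : ℝ => h (g (H v₀ + (s : ℂ) • m x))) x s := by
      have h12 := (hd.hasFDerivAt.restrictScalars ℝ).comp_hasDerivAt s h9
      have h13 : (fderiv ℂ h (g z)).restrictScalars ℝ η = x := hη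
      rw [h13] at h12
      exact h12
    have h11 : HasDerivAt (fun s : ℝ => (s : ℂ) • x) x s := by
      have h9 : HasDerivAt (fun s : ℝ => (s : ℂ) • x) ((1 : ℂ) • x) s :=
        (Complex.ofRealCLM.hasDerivAt (x := s)).smul_const x
      simpa using h9
    have h12 := h10.sub h11
    rw [sub_self] at h12
    exact h12
  have hconst := constant_of_has_deriv_right_zero
    (f := fun s : ℝ => h (g (H v₀ + (s : ℂ) • m x)) - (s : ℂ) • x) (a := 0) (b := 1)
    (fun s hs => (hder s hs).continuousAt.continuousWithinAt)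
    (fun s hs => (hder s ⟨hs.1, hs.2.le⟩).hasDerivWithinAt) 1 ⟨zero_le_one, le_rfl⟩
  have h1 := hmx 1 ⟨zero_le_one, le_rfl⟩
  simp only [Complex.ofReal_one, one_smul, Complex.ofReal_zero, zero_smul, add_zero, sub_zero,
    hg0] at hconst h1
  refine ⟨(hg _ h1).1, ?_, ?_⟩
  · rw [← hconst, sub_add_cancel]
  · have h2 : DifferentiableAt ℂ (fun x => H v₀ + m x) x :=
      (m.differentiableAt).const_add (H v₀)
    exact (hg _ h1).2.2.2.comp x h2

/-- the orbits of the translations by `𝔟` in the slice `h`: `J` any minor of `h` at `v₀` -/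
theorem orbit (E : Type) [NormedAddCommGroup E] [NormedSpace ℂ E] [FiniteDimensional ℂ E]
    {r A : ℝ} (hr : 0 < r) (hA : 0 < A) : ∃ c : ℝ, 0 < c ∧ ∀ (V : Type) [NormedAddCommGroup V]
    [NormedSpace ℂ V] [CompleteSpace V] (h : E → V) (v₀ : E),
    DifferentiableOn ℂ h (ball v₀ r) → (∀ v ∈ ball v₀ r, ‖fderiv ℂ h v‖ ≤ A) →
    ∀ m : V →L[ℂ] E, ‖m‖ ≤ 1 → (m.comp (fderiv ℂ h v₀)).det ≠ 0 → ∀ 𝔟 : Submodule ℂ V,
    (∀ v ∈ ball v₀ r, Function.Injective (fderiv ℂ h v) → ∀ x ∈ 𝔟, ∃ ξ, fderiv ℂ h v ξ = x) →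
    ∃ k : V → E, k 0 = v₀ ∧ ∀ x ∈ 𝔟, ‖x‖ < c * ‖(m.comp (fderiv ℂ h v₀)).det‖ ^ 2 →
      k x ∈ ball v₀ (r / 2) ∧ h (k x) = h v₀ + x ∧ DifferentiableAt ℂ k x := by
  obtain ⟨C, hC, hdet⟩ := det_bound E A
  -- `|det| ≤ D`
  have hprop : ProperSpace (E →L[ℂ] E) := FiniteDimensional.proper ℂ _
  obtain ⟨D, hD⟩ : ∃ D : ℝ, ∀ L : E →L[ℂ] E, ‖L‖ ≤ A → ‖L.det‖ ≤ D := by
    obtain ⟨D, hD⟩ := (isCompact_closedBall (0 : E →L[ℂ] E) A).exists_bound_of_continuousOn
      (f := fun L : E →L[ℂ] E => L.det) ContinuousLinearMap.continuous_det.continuousOn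
    exact ⟨D, fun L hL => hD L (by simpa using hL)⟩
  set D' := max D 1 with hD'
  have hD'0 : 0 < D' := lt_max_of_lt_right one_pos
  refine ⟨min (r / 4 / D') (r / (8 * A * C)) / (2 * C), by positivity, ?_⟩
  intro V _ _ _ h v₀ hh hbd m hm hJ 𝔟 h𝔟
  set J := ‖(m.comp (fderiv ℂ h v₀)).det‖ with hJdef
  have hJ0 : 0 < J := norm_pos_iff.2 hJ
  have hL : ‖m.comp (fderiv ℂ h v₀)‖ ≤ A := by
    calc ‖m.comp (fderiv ℂ h v₀)‖ ≤ ‖m‖ * ‖fderiv ℂ h v₀‖ :=
          ContinuousLinearMap.opNorm_comp_le _ _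
      _ ≤ 1 * A := mul_le_mul hm (hbd v₀ (mem_ball_self hr)) (norm_nonneg _) zero_le_one
      _ = A := one_mul A
  have hJD : J ≤ D' := (hD _ hL).trans (le_max_left _ _)
  have hinv : ∀ ξ, ‖ξ‖ ≤ C / J * ‖m (fderiv ℂ h v₀ ξ)‖ := by
    intro ξ
    have h1 := hdet _ hL ξ
    rw [div_mul_eq_mul_div, le_div_iff₀ hJ0, mul_comm ‖ξ‖ J]
    exact h1
  obtain ⟨k, hk0, hk⟩ := orbit_aux hr hA (div_pos hC hJ0) hh hbd m hm hinv 𝔟 h𝔟
  refine ⟨k, hk0, fun x hx hxc => hk x hx (hxc.trans_le ?_)⟩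
  have h1 : min (r / 4 / D') (r / (8 * A * C)) * J ≤ min (r / 4) (r / (8 * A * (C / J))) := by
    refine le_min ?_ ?_
    · calc min (r / 4 / D') (r / (8 * A * C)) * J ≤ r / 4 / D' * D' :=
            mul_le_mul (min_le_left _ _) hJD hJ0.le (by positivity)
        _ = r / 4 := by field_simp
    · calc min (r / 4 / D') (r / (8 * A * C)) * J ≤ r / (8 * A * C) * J :=
            mul_le_mul_of_nonneg_right (min_le_right _ _) hJ0.le
        _ = r / (8 * A * (C / J)) := by field_simp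
  calc min (r / 4 / D') (r / (8 * A * C)) / (2 * C) * J ^ 2
      = min (r / 4 / D') (r / (8 * A * C)) * J / (2 * (C / J)) := by field_simp
    _ ≤ min (r / 4) (r / (8 * A * (C / J))) / (2 * (C / J)) := by gcongr

end Vale.Agent.P281.H303.UD
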