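import Vale.Agent.P281.H303.UD.OrbI
import Vale.Agent.P281.H383.Gen.Good
import Vale.Agent.P281.H383.Gen.Ext

/-!
# P281, project T-UD (helper303): if one covering of a fibre is immersed, the general one is
-/

open Set Filter Metric MeasureTheory Vale.Agent.P281 Vale.Agent.P281.H713 Vale.Agent.P272.K
open scoped Topology ContDiff Manifold ComplexConjugate NNReal

set_option linter.unusedSectionVars false

noncomputable section

namespace Vale.Agent.P281.H303.UD

open Vale.Agent.P281.H64 (Mark Qf)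
open Vale.Agent.P281.H64.Thin (IsThinSet)
open Vale.Agent.P281.H64.Gen (IsSmallSet)
open Vale.Agent.P281.H64.TK Vale.Agent.P281.H603.K Vale.Agent.P281.H864.K
open Vale.Agent.P281.H603.TE
open Vale.Agent.P281.H83 (IsImmS immS_iso isoHol_of)
open Vale.Agent.P281.H150.Gen (AnIn SThin thin_of_isClosed)
open Vale.Agent.P281.H383.Gen (GoodVal core')

attribute [local instance] ccs

section alg

variable {V : Type} [NormedAddCommGroup V] [InnerProductSpace ℂ V] [FiniteDimensional ℂ V]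

/-- a linear map is injective iff one of its minors does not vanish -/
theorem inj_iff_det {d : ℕ} (A : Cm d →L[ℂ] V) : (∃ ξ, A ξ = 0 ∧ ξ ≠ 0) ↔
    ∀ l : Fin d → (V →L[ℂ] ℂ), Matrix.det (Matrix.of fun i j => l i (A (Pi.single j 1))) = 0 := by
  constructor
  · rintro ⟨ξ, hξ, hne⟩ l
    rw [← Matrix.exists_mulVec_eq_zero_iff]
    refine ⟨ξ, hne, ?_⟩
    funext i
    have h1 : ξ = ∑ j, ξ j • (Pi.single j (1 : ℂ) : Cm d) := by
      funext k
      simp [Finset.sum_apply, Pi.single_apply]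
    have h2 : l i (A ξ) = ∑ j, ξ j * l i (A (Pi.single j 1)) := by
      conv_lhs => rw [h1]
      rw [map_sum, map_sum]
      refine Finset.sum_congr rfl fun j _ => ?_
      rw [A.map_smul, (l i).map_smul, smul_eq_mul]
    rw [hξ, map_zero] at h2
    simp only [Matrix.mulVec, dotProduct, Matrix.of_apply, Pi.zero_apply]
    rw [h2]
    exact Finset.sum_congr rfl fun j _ => mul_comm _ _
  · intro h
    by_contra hcon
    push Not at hcon
    have hinj : Function.Injective (A : Cm d →ₗ[ℂ] V) := by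
      rw [injective_iff_map_eq_zero]
      intro ξ hξ
      exact hcon ξ hξ
    obtain ⟨g, hg⟩ := (A : Cm d →ₗ[ℂ] V).exists_leftInverse_of_injective
      (LinearMap.ker_eq_bot.2 hinj)
    have h1 := h fun i => (ContinuousLinearMap.proj i).comp g.toContinuousLinearMap
    have h2 : (Matrix.of fun i j => ((ContinuousLinearMap.proj (R := ℂ)
        (φ := fun _ : Fin d => ℂ) i).comp g.toContinuousLinearMap) (A (Pi.single j 1))) =
        (1 : Matrix (Fin d) (Fin d) ℂ) := by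
      ext i j
      have h3 : g (A (Pi.single j 1)) = Pi.single j 1 := LinearMap.congr_fun hg (Pi.single j 1)
      simp only [Matrix.of_apply, ContinuousLinearMap.comp_apply, ContinuousLinearMap.proj_apply,
        LinearMap.coe_toContinuousLinearMap', h3, Matrix.one_apply, Pi.single_apply]
    rw [h2, Matrix.det_one] at h1
    exact one_ne_zero h1

/-- the points where the partial derivative is not injective form an analytic set -/
theorem anIn_noinj {p d : ℕ} {W : Set (Cm p × Cm d)} (hW : IsOpen W) {G : Cm p × Cm d → V}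
    (hG : ∀ q ∈ W, AnalyticAt ℂ G q) :
    AnIn W {q | ∃ ξ : Cm d, fderiv ℂ G q (0, ξ) = 0 ∧ ξ ≠ 0} := by
  intro z hz
  refine ⟨W, Fin d → (V →L[ℂ] ℂ), fun l q => Matrix.det
    (Matrix.of fun i j => l i (fderiv ℂ G q (0, Pi.single j 1))), hW, hz, ?_, ?_⟩
  · intro l q hq
    have h1 : ∀ i j, AnalyticAt ℂ (fun q => l i (fderiv ℂ G q (0, Pi.single j 1))) q := by
      intro i j
      have h2 := (hG q hq).fderiv
      have h3 : AnalyticAt ℂ (fun q => fderiv ℂ G q (0, (Pi.single j 1 : Cm d))) q :=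
        ((ContinuousLinearMap.apply ℂ V ((0, Pi.single j 1) : Cm p × Cm d)).analyticAt _).fun_comp
          h2
      exact ((l i).analyticAt _).fun_comp h3
    simp only [Matrix.det_apply', Matrix.of_apply]
    refine Finset.analyticAt_fun_sum _ fun σ _ => ?_
    refine AnalyticAt.mul analyticAt_const ?_
    exact Finset.analyticAt_fun_prod _ fun i _ => h1 _ _
  · intro q hq
    exact inj_iff_det ((fderiv ℂ G q).comp (ContinuousLinearMap.inr ℂ (Cm p) (Cm d)))

end alg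

variable {p d : ℕ} {Z Y : Type} [TopologicalSpace Z] [T2Space Z] [ChartedSpace (Cm (p + d)) Z]
  [IsManifold 𝓘(ℂ, Cm (p + d)) ω Z] [TopologicalSpace Y] [T2Space Y] [ChartedSpace (Cm p) Y]
  [IsManifold 𝓘(ℂ, Cm p) ω Y] {f : Z → Y}
  {w : Chart (p + d) Z → Cm (p + d) → Matrix (Fin (p + d)) (Fin (p + d)) ℂ} {m n g b : ℕ}
  {B : Matrix (Fin n) (Fin n) ℝ}

/-- `IsImmE` in the local data -/
theorem immE_iff (I : Inputs) (hd : 0 < d) (hf : ContMDiff 𝓘(ℂ, Cm (p + d)) 𝓘(ℂ, Cm p) ω f)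
    (hw : IsKahler w) (L : DLocE (p := p) (d := d) f w m B g) {t : Cm p} (ht : t ∈ L.T') :
    ¬ IsImmE (p + d) p d m f (L.χ.symm t) ↔
      ∃ i, ∃ z ∈ ball (0 : Cm d) 3, ∃ ξ : Cm d, fderiv ℂ (HL L i) (t, z) (0, ξ) = 0 ∧ ξ ≠ 0 := by
  have hder : ∀ i, ∀ z ∈ ball (0 : Cm d) 3, HasFDerivAt (fun z : Cm d => HL L i (t, z))
      ((fderiv ℂ (HL L i) (t, z)).comp (ContinuousLinearMap.inr ℂ (Cm p) (Cm d))) z :=
    fun i z hz =>
      (HL_hol L i ht hz).differentiableAt.hasFDerivAt.comp z (hasFDerivAt_prodMk_right t z)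
  constructor
  · intro h
    by_contra hcon
    push Not at hcon
    apply h
    refine ⟨L.E, L.Γ, inferInstance, inferInstance, inferInstance, inferInstance, inferInstance,
      inferInstance, L.𝓕, L.q, L.χ, t, L.hT' ht, L.fin, L.model, rfl, ?_⟩
    intro i z hz ξ hξ
    have h1 : fderiv ℂ (HL L i) (t, z) (0, ξ) ≠ 0 := fun h0 => hξ (hcon i z hz ξ h0)
    have h2 : ∃ j, (fderiv ℂ (HL L i) (t, z) (0, ξ)) j ≠ 0 := by
      by_contra hc
      push Not at hc
      exact h1 (PiLp.ext fun j => by rw [hc j]; rfl)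
    obtain ⟨j, hj⟩ := h2
    refine ⟨fun e => L.F t e j, _, (L.bas t ht).add j, ?_⟩
    have h3 : HasFDerivAt (fun z : Cm d => EuclideanSpace.proj (𝕜 := ℂ) j (HL L i (t, z)))
        ((EuclideanSpace.proj (𝕜 := ℂ) j).comp ((fderiv ℂ (HL L i) (t, z)).comp
          (ContinuousLinearMap.inr ℂ (Cm p) (Cm d)))) z :=
      (EuclideanSpace.proj (𝕜 := ℂ) j).hasFDerivAt.comp z (hder i z hz)
    have h4 : fderiv ℂ (fun z => L.F t ((sub (L.𝓕.at t (L.hT' ht)) (core L.Γ m)).σ i z) j) z =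
        (EuclideanSpace.proj (𝕜 := ℂ) j).comp ((fderiv ℂ (HL L i) (t, z)).comp
          (ContinuousLinearMap.inr ℂ (Cm p) (Cm d))) := h3.fderiv
    rw [h4]
    exact hj
  · rintro ⟨i, z, hz, ξ, h0, hne⟩ h
    obtain ⟨E', Γ', _, _, _, _, _, _, 𝓕', q', χ', t', ht', hfin, hM', hy', hT⟩ := h
    obtain ⟨W', hPull', hKF'⟩ := I.w p d Z Y f w E' Γ' 𝓕' q' χ' hf hM' hw
    obtain ⟨τ, ρ, -, -, hc⟩ := compareE I hd hf hw L.model hM' L.pull hPull' (L.hT' ht) ht'
      hy'.symm m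
    have h4 : IsImmS (sub (L.𝓕.at t (L.hT' ht)) (core L.Γ m)) :=
      immS_iso (ρ := res ρ fun _ => map_core ρ m) hc.eqv (isoHol_of hc) fun j v hv =>
        hT j v (ball13 (by simpa using hv))
    have hC2 := (I.c2 d L.E (core L.Γ m) (sub (L.𝓕.at t (L.hT' ht)) (core L.Γ m)) _ hd
      (kah_fW _ L.kfam (L.hT' ht))).2
    obtain ⟨u, b, hu, hu'⟩ := h4 i z hz ξ hne
    obtain ⟨s, b', hs⟩ := exists_lin (L.bas t ht) hC2 hu
    apply hu'
    have h1 : (fun z => u ((sub (L.𝓕.at t (L.hT' ht)) (core L.Γ m)).σ i z)) =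
        fun z => fnl s (HL L i (t, z)) + b' := by
      funext z
      rw [hs, HL, FL, fnl_apply]
      rfl
    have h3 : HasFDerivAt (fun z : Cm d => fnl s (HL L i (t, z)) + b')
        ((fnl s).comp ((fderiv ℂ (HL L i) (t, z)).comp
          (ContinuousLinearMap.inr ℂ (Cm p) (Cm d)))) z :=
      ((fnl s).hasFDerivAt.comp z (hder i z hz)).add_const b'
    rw [h1, h3.fderiv]
    show fnl s (fderiv ℂ (HL L i) (t, z) (0, ξ)) = 0
    rw [h0, map_zero]

/-- the boundary of the set of the parameters of the non immersed manifolds -/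
theorem sthin_loc (I : Inputs) (hd : 0 < d) (hf : ContMDiff 𝓘(ℂ, Cm (p + d)) 𝓘(ℂ, Cm p) ω f)
    (hw : IsKahler w) (L : DLocE (p := p) (d := d) f w m B g) :
    SThin (Cm p) {t | (t ∈ L.T' ∧ ¬ IsImmE (p + d) p d m f (L.χ.symm t)) ∧
      t ∉ interior {t | t ∈ L.T' ∧ ¬ IsImmE (p + d) p d m f (L.χ.symm t)}} := by
  set T := {t | t ∈ L.T' ∧ ¬ IsImmE (p + d) p d m f (L.χ.symm t)} with hT
  set W : Set (Cm p × Cm d) := L.T' ×ˢ ball (0 : Cm d) 3 with hW
  have hWo : IsOpen W := L.isOpen'.prod isOpen_ball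
  set A : Fin (fsub L.𝓕 (core L.Γ m)).N → Set (Cm p × Cm d) := fun i =>
    {q | ∃ ξ : Cm d, fderiv ℂ (HL L i) q (0, ξ) = 0 ∧ ξ ≠ 0} with hA
  have hAn : ∀ i, AnIn W (A i) := fun i =>
    anIn_noinj hWo fun q hq => HL_hol L i hq.1 hq.2
  have hfst : ∀ z ∈ W, AnalyticAt ℂ (Prod.fst : Cm p × Cm d → Cm p) z := fun z _ =>
    (ContinuousLinearMap.fst ℂ (Cm p) (Cm d)).analyticAt z
  have hS : ∀ i, SThin (Cm p) (Prod.fst '' {x | x ∈ A i ∩ W ∧
      x.1 ∉ GoodVal W (A i) (Prod.fst : Cm p × Cm d → Cm p)}) := fun i =>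
    core' p _ (Cm p × Cm d) rfl W (A i) Prod.fst hWo hfst (hAn i)
  refine (SThin.iUnion hS).mono ?_
  rintro t ⟨⟨ht, h1⟩, h2⟩
  obtain ⟨i, z, hz, ξ, hξ⟩ := (immE_iff I hd hf hw L ht).1 h1
  refine mem_iUnion.2 ⟨i, (t, z), ⟨⟨⟨ξ, hξ⟩, ht, hz⟩, fun hcon => h2 ?_⟩, rfl⟩
  refine GoodVal.mem_interior (T := T) hfst ?_ hcon
  rintro ⟨t', z'⟩ ⟨⟨ξ', hξ'⟩, ht', hz'⟩
  exact ⟨ht', (immE_iff I hd hf hw L ht').2 ⟨i, z', hz', ξ', hξ'⟩⟩

/-- thin sets of a chart give thin sets of the manifold -/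
theorem thin_atlas {χ : OpenPartialHomeomorph Y (Cm p)} (hχ : χ ∈ atlas (Cm p) Y) {K : Set (Cm p)}
    (hK : IsCompact K) (hKt : K ⊆ χ.target) {H : Set (Cm p)} (hH : IsThinSet (Cm p) H) :
    IsThinSet (Cm p) (χ.symm '' (H ∩ K)) := by
  have hmax : χ ∈ IsManifold.maximalAtlas 𝓘(ℂ, Cm p) ω Y :=
    IsManifold.subset_maximalAtlas hχ
  have hc : IsCompact (χ.symm '' (H ∩ K)) :=
    (hK.inter_left hH.1).image_of_continuousOn fun w hw =>
      (χ.continuousOn_symm.mono hKt w hw.2).mono inter_subset_right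
  refine thin_of_isClosed hc.isClosed ?_
  rintro _ ⟨w, hw, rfl⟩
  have hwt : w ∈ χ.target := hKt hw.2
  obtain ⟨g, hg, hne, hs⟩ := hH.2 w
  have hχt : Tendsto χ (𝓝 (χ.symm w)) (𝓝 w) := by
    have := (χ.continuousAt (χ.map_target hwt)).tendsto
    rwa [χ.right_inv hwt] at this
  refine ⟨fun y => g (χ y), ?_, ?_, ?_⟩
  · have h1 : ContMDiffAt 𝓘(ℂ, Cm p) 𝓘(ℂ, ℂ) ω g (χ (χ.symm w)) := by
      rw [χ.right_inv hwt]; exact hg
    exact ContMDiffAt.comp (χ.symm w) h1
      (contMDiffAt_of_mem_maximalAtlas hmax (χ.map_target hwt))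
  · intro h
    apply hne
    have h2 : Tendsto χ.symm (𝓝 w) (𝓝 (χ.symm w)) :=
      (χ.continuousAt_symm hwt).tendsto
    filter_upwards [h2.eventually h, χ.open_target.eventually_mem hwt] with w' h3 h4
    rwa [χ.right_inv h4] at h3
  · filter_upwards [hχt.eventually hs] with y hy hyB
    obtain ⟨w', hw', rfl⟩ := hyB
    rw [χ.right_inv (hKt hw'.2)] at hy ⊢
    exact hy hw'.1

/-- **The dichotomy**: if one fibre has an immersed covering, then so have the general ones. -/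
theorem immDich (I : Inputs) [CompactSpace Y] [PreconnectedSpace Y] (hd : 0 < d)
    (hf : ContMDiff 𝓘(ℂ, Cm (p + d)) 𝓘(ℂ, Cm p) ω f) (hw : IsKahler w) {S : Set Y}
    (hP : H64.IsProperFibration (n := p + d) (p := p) f S) (hS : IsSmallSet (Cm p) S)
    {y₁ : Y} (hy₁ : y₁ ∉ S) (h : IsImmE (p + d) p d m f y₁) :
    IsSmallSet (Cm p) (S ∪ {y | ¬ IsImmE (p + d) p d m f y}) := by
  have hconn : IsPreconnected Sᶜ := (Vale.Agent.P281.H383.Gen.compl p Y S hS).2
  obtain ⟨n, g, -, B, hL⟩ := dglobE I hd m hf hw hP hconn hy₁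
  set C : Set Y := {y | y ∉ S ∧ ¬ IsImmE (p + d) p d m f y} with hC
  set O : Set Y := {y | y ∉ S ∧ IsImmE (p + d) p d m f y} with hO
  have hOo : IsOpen O := by
    rw [isOpen_iff_mem_nhds]
    rintro y ⟨hy, hyI⟩
    filter_upwards [hS.1.isOpen_compl.mem_nhds hy, H83.immOpen_of I p d m Z Y f S w hd hf hP hconn
      hw y hy hyI] with y' h1 h2
    exact ⟨h1, h2⟩
  have : SecondCountableTopology Y :=
    ChartedSpace.secondCountable_of_sigmaCompact (Cm p) Y
  have hCS : SThin (Cm p) (C \ interior C) := by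
    have h1 : SThin (Cm p) ((fun y : Y => y) '' (C \ interior C)) := by
      refine SThin.image_of_local fun y hy => ?_
      obtain ⟨L, hs, ht, -⟩ := hL y hy.1.1
      obtain ⟨H, hH, hcov⟩ := sthin_loc I hd hf hw L
      have h2 : L.χ y ∈ L.T' ∩ L.χ.target := ⟨ht, L.χ.map_source hs⟩
      obtain ⟨r, hr, hrT⟩ := Metric.nhds_basis_closedBall.mem_iff.1
        ((L.isOpen'.inter L.χ.open_target).mem_nhds h2)
      have h3 : ∀ᶠ y' in 𝓝 y, y' ∈ L.χ.source ∧ L.χ y' ∈ closedBall (L.χ y) r :=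
        (L.χ.open_source.eventually_mem hs).and
          ((L.χ.continuousAt hs).eventually (closedBall_mem_nhds _ hr))
      refine ⟨_, h3, ?_⟩
      refine ⟨fun k => L.χ.symm '' (H k ∩ closedBall (L.χ y) r), fun k =>
        thin_atlas L.model.atlas (isCompact_closedBall _ _) (fun t ht => (hrT ht).2) (hH k), ?_⟩
      rintro _ ⟨y', ⟨⟨⟨hy'S, hy'I⟩, hy'int⟩, hy's, hy'b⟩, rfl⟩
      have h4 : L.χ.symm (L.χ y') = y' := L.χ.left_inv hy's
      have h5 : L.χ y' ∈ {t | (t ∈ L.T' ∧ ¬ IsImmE (p + d) p d m f (L.χ.symm t)) ∧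
          t ∉ interior {t | t ∈ L.T' ∧ ¬ IsImmE (p + d) p d m f (L.χ.symm t)}} := by
        refine ⟨⟨(hrT hy'b).1, by rwa [h4]⟩, fun hcon => hy'int ?_⟩
        rw [mem_interior_iff_mem_nhds] at hcon ⊢
        filter_upwards [(L.χ.continuousAt hy's).eventually hcon,
          L.χ.open_source.eventually_mem hy's, hS.1.isOpen_compl.mem_nhds hy'S] with y'' h6 h7 h8
        refine ⟨h8, ?_⟩
        have h9 := h6.2
        rwa [L.χ.left_inv h7] at h9
      obtain ⟨k, hk⟩ := mem_iUnion.1 (hcov h5)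
      exact mem_iUnion.2 ⟨k, L.χ y', ⟨hk, hy'b⟩, h4⟩
    rwa [image_id'] at h1
  have hcompl : (S ∪ (C \ interior C))ᶜ = O ∪ interior C := by
    ext y
    simp only [mem_compl_iff, mem_union, Set.mem_sdiff, not_or, not_and, not_not]
    constructor
    · rintro ⟨h1, h2⟩
      by_cases h3 : IsImmE (p + d) p d m f y
      · exact Or.inl ⟨h1, h3⟩
      · exact Or.inr (h2 ⟨h1, h3⟩)
    · rintro (⟨h1, h2⟩ | h1)
      · exact ⟨h1, fun h3 => absurd h2 h3.2⟩
      · exact ⟨(interior_subset h1).1, fun _ => h1⟩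
  have hS' : IsSmallSet (Cm p) (S ∪ (C \ interior C)) := by
    refine ⟨?_, ?_⟩
    · rw [← isOpen_compl_iff, hcompl]
      exact hOo.union isOpen_interior
    · have h1 : SThin (Cm p) S := hS.2
      exact h1.union hCS
  have hpre := (Vale.Agent.P281.H383.Gen.compl p Y _ hS').2
  rw [hcompl] at hpre
  have hint : interior C = ∅ := by
    rw [← not_nonempty_iff_eq_empty]
    rintro ⟨y₂, hy₂⟩
    obtain ⟨y, -, h1, h2⟩ := hpre O (interior C) hOo isOpen_interior subset_rfl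
      ⟨y₁, Or.inl ⟨hy₁, h⟩, hy₁, h⟩ ⟨y₂, Or.inr hy₂, hy₂⟩
    exact (interior_subset h2).2 h1.2
  have hfin : S ∪ {y | ¬ IsImmE (p + d) p d m f y} = S ∪ (C \ interior C) := by
    rw [hint, sdiff_empty]
    ext y
    simp only [mem_union, mem_ofPred_eq, hC]
    by_cases hy : y ∈ S
    · simp [hy]
    · simp [hy]
  rw [hfin]
  exact hS'

end Vale.Agent.P281.H303.UD
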