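import Vale.Agent.P281.H303.UD.LocFlow
import Vale.Agent.P281.H349.O.Act
import Vale.Agent.P281.H64.TK.Defs

/-!
# P281, T-UD (helper303): the flows of constant vector fields on a family of immersed manifolds
-/

open Set Filter Metric
open scoped Topology ContDiff

set_option linter.all false

noncomputable section

namespace Vale.Agent.P281.H303.UD

open Vale.Agent.P281.H64.TK
open Vale.Agent.P281.H64 (Cm)
open Vale.Agent.P281.H349.O (PAct lift_unique exists_act)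

variable {p d : ℕ} {E K : Type} [TopologicalSpace E] [T2Space E] [Group K] [MulAction K E]
  [ContinuousConstSMul K E]
  {W V : Type} [NormedAddCommGroup W] [NormedSpace ℂ W] [FiniteDimensional ℂ W]
  [NormedAddCommGroup V] [NormedSpace ℂ V] [FiniteDimensional ℂ V]

/-- `F t : E → V` is additive for `K`, and immersive; the vectors `J t v` are tangent to its image. -/
structure ImmF (𝓕 : Fam p d E K) (T' : Set (Cm p)) (F : Cm p → E → V) (c : Cm p → K → V)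
    (J : Cm p → W →L[ℂ] V) : Prop where
  sub : T' ⊆ 𝓕.T
  isOpen : IsOpen T'
  add : ∀ t ∈ T', ∀ κ e, F t (κ • e) = F t e + c t κ
  hol : ∀ i, ∀ t ∈ T', ∀ z ∈ ball (0 : Cm d) 3,
    AnalyticAt ℂ (fun q : Cm p × Cm d => F q.1 (𝓕.σ i q.1 q.2)) (t, z)
  imm : ∀ i, ∀ t ∈ T', ∀ z ∈ ball (0 : Cm d) 3, ∀ ξ : Cm d,
    fderiv ℂ (fun q : Cm p × Cm d => F q.1 (𝓕.σ i q.1 q.2)) (t, z) (0, ξ) = 0 → ξ = 0
  holJ : ∀ t ∈ T', AnalyticAt ℂ J t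
  tan : ∀ i, ∀ t ∈ T', ∀ z ∈ ball (0 : Cm d) 3, ∀ v, ∃ ξ : Cm d,
    fderiv ℂ (fun q : Cm p × Cm d => F q.1 (𝓕.σ i q.1 q.2)) (t, z) (0, ξ) = J t v

theorem mem_ball3 {z : Cm d} (hz : ‖z‖ ≤ 1) : z ∈ ball (0 : Cm d) 3 := by
  rw [mem_ball_zero_iff]
  linarith

variable {𝓕 : Fam p d E K} {T' : Set (Cm p)} {F : Cm p → E → V} {c : Cm p → K → V}
  {J : Cm p → W →L[ℂ] V}

theorem map_smul (κ : K) (i : Fin 𝓕.N) {t : Cm p} (ht : t ∈ 𝓕.T) {z : Cm d}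
    (hz : z ∈ ball (0 : Cm d) 3) :
    Filter.map (fun q : Cm p × Cm d => (q.1, κ • 𝓕.σ i q.1 q.2)) (𝓝 (t, z)) =
      𝓝 (t, κ • 𝓕.σ i t z) := by
  have h1 : (fun q : Cm p × Cm d => (q.1, κ • 𝓕.σ i q.1 q.2)) =
      ((Homeomorph.refl (Cm p)).prodCongr (Homeomorph.smul κ)) ∘
        fun q : Cm p × Cm d => (q.1, 𝓕.σ i q.1 q.2) := rfl
  rw [h1, ← Filter.map_map, 𝓕.map_nhds i t ht z hz, Homeomorph.map_nhds_eq]
  rfl

theorem map_smul3 (κ : K) (i : Fin 𝓕.N) {t : Cm p} (ht : t ∈ 𝓕.T) {z : Cm d}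
    (hz : z ∈ ball (0 : Cm d) 3) (v : W) :
    Filter.map (fun q : W × (Cm p × Cm d) => (q.1, (q.2.1, κ • 𝓕.σ i q.2.1 q.2.2)))
      (𝓝 (v, (t, z))) = 𝓝 (v, (t, κ • 𝓕.σ i t z)) := by
  rw [nhds_prod_eq (x := v) (y := (t, z)), nhds_prod_eq (x := v) (y := (t, κ • 𝓕.σ i t z)),
    ← map_smul κ i ht hz]
  have := Filter.prod_map_map_eq (f₁ := 𝓝 v) (f₂ := 𝓝 (t, z)) (m₁ := (id : W → W))
    (m₂ := fun q : Cm p × Cm d => (q.1, κ • 𝓕.σ i q.1 q.2))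
  rw [Filter.map_id] at this
  exact this.symm

theorem cont_sigma (κ : K) (i : Fin 𝓕.N) {t : Cm p} (ht : t ∈ 𝓕.T) {z : Cm d}
    (hz : z ∈ ball (0 : Cm d) 3) :
    ContinuousAt (fun q : Cm p × Cm d => κ • 𝓕.σ i q.1 q.2) (t, z) := by
  have h1 : Tendsto (fun q : Cm p × Cm d => (q.1, κ • 𝓕.σ i q.1 q.2)) (𝓝 (t, z))
      (𝓝 (t, κ • 𝓕.σ i t z)) := (map_smul κ i ht hz).le
  exact (continuous_snd.tendsto _).comp h1

/-- continuity of a map given in sheets -/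
theorem cont_of {G : W × (Cm p × E) → E} {v₀ : W} {t₀ : Cm p} (ht₀ : t₀ ∈ 𝓕.T) (κ κ' : K)
    (i i' : Fin 𝓕.N) {z₀ : Cm d} (hz₀ : z₀ ∈ ball (0 : Cm d) 3) {θ : W × (Cm p × Cm d) → Cm d}
    (hθ : ContinuousAt θ (v₀, (t₀, z₀))) (hθ3 : θ (v₀, (t₀, z₀)) ∈ ball (0 : Cm d) 3)
    (hG : ∀ᶠ q in 𝓝 (v₀, (t₀, z₀)), G (q.1, (q.2.1, κ • 𝓕.σ i q.2.1 q.2.2)) =
      κ' • 𝓕.σ i' q.2.1 (θ q)) : ContinuousAt G (v₀, (t₀, κ • 𝓕.σ i t₀ z₀)) := by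
  rw [ContinuousAt, ← map_smul3 κ i ht₀ hz₀ v₀, tendsto_map'_iff]
  have h1 : (G ∘ fun q : W × (Cm p × Cm d) => (q.1, (q.2.1, κ • 𝓕.σ i q.2.1 q.2.2))) =ᶠ[
      𝓝 (v₀, (t₀, z₀))] fun q => κ' • 𝓕.σ i' q.2.1 (θ q) := hG
  rw [hG.self_of_nhds]
  refine Tendsto.congr' h1.symm ?_
  have h2 : Tendsto (fun q : W × (Cm p × Cm d) => (q.2.1, θ q)) (𝓝 (v₀, (t₀, z₀)))
      (𝓝 (t₀, θ (v₀, (t₀, z₀)))) :=
    ((continuous_fst.comp continuous_snd).tendsto (v₀, (t₀, z₀))).prodMk_nhds hθ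
  exact (cont_sigma κ' i' ht₀ hθ3).tendsto.comp h2

namespace ImmF

variable (hI : ImmF 𝓕 T' F c J)

include hI

theorem loc_inj {t : Cm p} (ht : t ∈ T') : IsLocallyInjective (F t) := by
  rw [isLocallyInjective_iff_nhds]
  intro e
  obtain ⟨κ, i, z, hz, rfl⟩ := 𝓕.cover t (hI.sub ht) e
  have hz3 : z ∈ ball (0 : Cm d) 3 := mem_ball3 hz.le
  obtain ⟨m, Φ, -, hΦ⟩ := flat_chart (hI.hol i t ht z hz3) (hI.imm i t ht z hz3)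
  have h1 : ∀ᶠ z' in 𝓝 z, Φ (t, m (F t (𝓕.σ i t z'))) = z' := by
    have h2 : Tendsto (fun z' : Cm d => (t, z')) (𝓝 z) (𝓝 (t, z)) :=
      (Continuous.prodMk_right t).tendsto z
    exact h2.eventually hΦ
  have h2 : (fun z' => κ • 𝓕.σ i t z') '' {z' | Φ (t, m (F t (𝓕.σ i t z'))) = z'} ∈
      𝓝 (κ • 𝓕.σ i t z) := by
    have h3 : Filter.map (fun z' => κ • 𝓕.σ i t z') (𝓝 z) = 𝓝 (κ • 𝓕.σ i t z) := by
      have h4 : (fun z' => κ • 𝓕.σ i t z') = (fun e : E => κ • e) ∘ 𝓕.σ i t := rfl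
      rw [h4, ← Filter.map_map, 𝓕.map_nhds' i t (hI.sub ht) z hz3]
      exact (Homeomorph.smul κ).map_nhds_eq _
    rw [← h3]
    exact image_mem_map h1
  refine ⟨_, h2, ?_⟩
  rintro _ ⟨z₁, hz₁, rfl⟩ _ ⟨z₂, hz₂, rfl⟩ h
  have h3 : F t (𝓕.σ i t z₁) = F t (𝓕.σ i t z₂) := by
    have h4 := h
    simp only [hI.add t ht] at h4
    exact add_right_cancel h4
  have hz₁' : Φ (t, m (F t (𝓕.σ i t z₁))) = z₁ := hz₁
  have hz₂' : Φ (t, m (F t (𝓕.σ i t z₂))) = z₂ := hz₂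
  have h5 : z₁ = z₂ := by rw [← hz₁', h3, hz₂']
  rw [h5]

/-- boxes -/
theorem box {t₀ : Cm p} (ht₀ : t₀ ∈ T') (i : Fin 𝓕.N) {z₀ : Cm d}
    (hz₀ : z₀ ∈ ball (0 : Cm d) 3) : ∃ r : ℝ, 0 < r ∧ ∃ θ : W × (Cm p × Cm d) → Cm d,
      ∀ v ∈ ball (0 : W) r, ∀ t ∈ ball t₀ r, ∀ z ∈ ball z₀ r, t ∈ T' ∧ z ∈ ball (0 : Cm d) 3 ∧
        AnalyticAt ℂ θ (v, (t, z)) ∧ θ (v, (t, z)) ∈ ball (0 : Cm d) 3 ∧
        F t (𝓕.σ i t (θ (v, (t, z)))) = F t (𝓕.σ i t z) + J t v ∧ θ (0, (t, z)) = z := by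
  have htan : ∀ᶠ q in 𝓝 (t₀, z₀), ∀ v, ∃ ξ : Cm d,
      fderiv ℂ (fun q : Cm p × Cm d => F q.1 (𝓕.σ i q.1 q.2)) q (0, ξ) = J q.1 v := by
    filter_upwards [(hI.isOpen.prod isOpen_ball).mem_nhds (show (t₀, z₀) ∈ T' ×ˢ ball (0 : Cm d) 3
      from ⟨ht₀, hz₀⟩)] with q hq
    exact hI.tan i q.1 hq.1 q.2 hq.2
  obtain ⟨θ, h1, h2⟩ := local_flow (hI.hol i t₀ ht₀ z₀ hz₀) (hI.holJ t₀ ht₀)
    (hI.imm i t₀ ht₀ z₀ hz₀) htan
  let ρ : W × (Cm p × Cm d) → Cm p × Cm d × W := fun q => (q.2.1, q.2.2, q.1)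
  have hρ : ∀ q, AnalyticAt ℂ ρ q := by
    intro q
    have : ContDiffAt ℂ ω ρ q := by fun_prop
    exact this.analyticAt
  have hρt : Tendsto ρ (𝓝 (0, (t₀, z₀))) (𝓝 (t₀, z₀, 0)) := (hρ _).continuousAt.tendsto
  have h00 : θ (t₀, z₀, 0) = z₀ := h2.self_of_nhds
  have hall : ∀ᶠ q in 𝓝 ((0 : W), (t₀, z₀)), q.2.1 ∈ T' ∧ q.2.2 ∈ ball (0 : Cm d) 3 ∧
      AnalyticAt ℂ (fun q => θ (ρ q)) q ∧ θ (ρ q) ∈ ball (0 : Cm d) 3 ∧
      F q.2.1 (𝓕.σ i q.2.1 (θ (ρ q))) = F q.2.1 (𝓕.σ i q.2.1 q.2.2) + J q.2.1 q.1 ∧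
      θ (q.2.1, q.2.2, 0) = q.2.2 := by
    have k1 : ∀ᶠ q : W × (Cm p × Cm d) in 𝓝 (0, (t₀, z₀)), q.2 ∈ T' ×ˢ ball (0 : Cm d) 3 :=
      (continuous_snd.tendsto ((0 : W), (t₀, z₀))).eventually
        ((hI.isOpen.prod isOpen_ball).mem_nhds ⟨ht₀, hz₀⟩)
    have k2 : ∀ᶠ q : W × (Cm p × Cm d) in 𝓝 (0, (t₀, z₀)), θ (q.2.1, q.2.2, 0) = q.2.2 :=
      (continuous_snd.tendsto ((0 : W), (t₀, z₀))).eventually h2
    have k3 : ContinuousAt θ (t₀, z₀, 0) := h1.self_of_nhds.1.continuousAt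
    have k4 : ∀ᶠ q in 𝓝 ((0 : W), (t₀, z₀)), θ (ρ q) ∈ ball (0 : Cm d) 3 := by
      have k5 : Tendsto (fun q => θ (ρ q)) (𝓝 (0, (t₀, z₀))) (𝓝 z₀) := by
        have := k3.tendsto.comp hρt
        rwa [h00] at this
      exact k5.eventually (isOpen_ball.mem_nhds hz₀)
    filter_upwards [k1, k2, hρt.eventually h1, k4] with q a1 a2 a3 a4
    exact ⟨a1.1, a1.2, a3.1.comp' (hρ q), a4, a3.2, a2⟩
  obtain ⟨r, hr, hb⟩ := Metric.eventually_nhds_iff.1 hall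
  refine ⟨r, hr, fun q => θ (ρ q), fun v hv t ht z hz => ?_⟩
  have h3 : dist (v, (t, z)) ((0 : W), (t₀, z₀)) < r := by
    rw [Prod.dist_eq, Prod.dist_eq]
    exact max_lt hv (max_lt ht hz)
  obtain ⟨a1, a2, a3, a4, a5, a6⟩ := hb h3
  exact ⟨a1, a2, a3, a4, a5, a6⟩

/-- uniform boxes -/
theorem boxes {t₀ : Cm p} (ht₀ : t₀ ∈ T') : ∃ ε : ℝ, 0 < ε ∧ ∀ i : Fin 𝓕.N, ∀ z : Cm d,
    ‖z‖ ≤ 1 → ∃ z₀ : Cm d, ∃ r : ℝ, ε ≤ r ∧ z ∈ ball z₀ r ∧ ∃ θ : W × (Cm p × Cm d) → Cm d,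
      ∀ v ∈ ball (0 : W) r, ∀ t ∈ ball t₀ r, ∀ z ∈ ball z₀ r, t ∈ T' ∧ z ∈ ball (0 : Cm d) 3 ∧
        AnalyticAt ℂ θ (v, (t, z)) ∧ θ (v, (t, z)) ∈ ball (0 : Cm d) 3 ∧
        F t (𝓕.σ i t (θ (v, (t, z)))) = F t (𝓕.σ i t z) + J t v ∧ θ (0, (t, z)) = z := by
  classical
  have h1 : ∀ i : Fin 𝓕.N, ∃ ε : ℝ, 0 < ε ∧ ∀ z : Cm d,
    ‖z‖ ≤ 1 → ∃ z₀ : Cm d, ∃ r : ℝ, ε ≤ r ∧ z ∈ ball z₀ r ∧ ∃ θ : W × (Cm p × Cm d) → Cm d,
      ∀ v ∈ ball (0 : W) r, ∀ t ∈ ball t₀ r, ∀ z ∈ ball z₀ r, t ∈ T' ∧ z ∈ ball (0 : Cm d) 3 ∧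
        AnalyticAt ℂ θ (v, (t, z)) ∧ θ (v, (t, z)) ∈ ball (0 : Cm d) 3 ∧
        F t (𝓕.σ i t (θ (v, (t, z)))) = F t (𝓕.σ i t z) + J t v ∧ θ (0, (t, z)) = z := by
    intro i
    choose! r hr θ hθ using fun (z₀ : Cm d) (hz₀ : z₀ ∈ ball (0 : Cm d) 3) =>
      hI.box (W := W) ht₀ i hz₀
    have hK : IsCompact (closedBall (0 : Cm d) 1) := isCompact_closedBall _ _
    have h3 : ∀ z ∈ closedBall (0 : Cm d) 1, z ∈ ball (0 : Cm d) 3 := fun z hz =>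
      mem_ball3 (by simpa using hz)
    obtain ⟨s, hs, hcov⟩ := hK.elim_nhds_subcover (fun z => ball z (r z)) fun z hz =>
      ball_mem_nhds z (hr z (h3 z hz))
    obtain ⟨ε, hε, hle⟩ : ∃ ε : ℝ, 0 < ε ∧ ∀ z ∈ s, ε ≤ r z := by
      rcases s.eq_empty_or_nonempty with rfl | hne
      · exact ⟨1, one_pos, fun z hz => absurd hz (Finset.notMem_empty z)⟩
      · refine ⟨s.inf' hne r, ?_, fun z hz => Finset.inf'_le r hz⟩
        rw [Finset.lt_inf'_iff]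
        exact fun z hz => hr z (h3 z (hs z hz))
    refine ⟨ε, hε, fun z hz => ?_⟩
    obtain ⟨z₀, hz₀, hzz⟩ := mem_iUnion₂.1 (hcov (show z ∈ closedBall (0 : Cm d) 1 by simpa using hz))
    exact ⟨z₀, r z₀, hle z₀ hz₀, hzz, θ z₀, hθ z₀ (h3 z₀ (hs z₀ hz₀))⟩
  choose ε hε h using h1
  obtain ⟨δ, hδ, hle⟩ : ∃ δ : ℝ, 0 < δ ∧ ∀ i, δ ≤ ε i := by
    rcases isEmpty_or_nonempty (Fin 𝓕.N) with he | hne
    · exact ⟨1, one_pos, fun i => (he.false i).elim⟩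
    · refine ⟨Finset.univ.inf' Finset.univ_nonempty ε, ?_, fun i =>
        Finset.inf'_le ε (Finset.mem_univ i)⟩
      rw [Finset.lt_inf'_iff]
      exact fun i _ => hε i
  refine ⟨δ, hδ, fun i z hz => ?_⟩
  obtain ⟨z₀, r, h1, h2, h3⟩ := h i z hz
  exact ⟨z₀, r, (hle i).trans h1, h2, h3⟩

omit hI in
/-- the end points of the lifts of segments -/
def Pth (h : E → V) (w : V) (e e' : E) : Prop :=
  ∃ c : ℝ → E, ContinuousOn c (Icc 0 1) ∧ c 0 = e ∧ c 1 = e' ∧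
    ∀ s ∈ Icc (0 : ℝ) 1, h (c s) = h e + (s : ℂ) • w

omit [ContinuousConstSMul K E] hI in
theorem Pth.unique {h : E → V} (hi : IsLocallyInjective h) {w : V} {e e₁ e₂ : E}
    (h₁ : Pth h w e e₁) (h₂ : Pth h w e e₂) : e₁ = e₂ := by
  obtain ⟨c, a1, a2, a3, a4⟩ := h₁
  obtain ⟨c', b1, b2, b3, b4⟩ := h₂
  have := lift_unique hi isPreconnected_Icc a1 b1 (fun s hs => by rw [a4 s hs, b4 s hs])
    (a := 0) ⟨le_rfl, zero_le_one⟩ (by rw [a2, b2]) 1 ⟨zero_le_one, le_rfl⟩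
  rw [← a3, ← b3, this]

theorem pth_box {i : Fin 𝓕.N} {t₀ z₀ : _} {r : ℝ} {θ : W × (Cm p × Cm d) → Cm d}
    (hθ : ∀ v ∈ ball (0 : W) r, ∀ t ∈ ball t₀ r, ∀ z ∈ ball z₀ r, t ∈ T' ∧ z ∈ ball (0 : Cm d) 3 ∧
        AnalyticAt ℂ θ (v, (t, z)) ∧ θ (v, (t, z)) ∈ ball (0 : Cm d) 3 ∧
        F t (𝓕.σ i t (θ (v, (t, z)))) = F t (𝓕.σ i t z) + J t v ∧ θ (0, (t, z)) = z)
    {v : W} (hv : v ∈ ball (0 : W) r) {t : Cm p} (ht : t ∈ ball t₀ r) {z : Cm d}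
    (hz : z ∈ ball z₀ r) (κ : K) :
    Pth (F t) (J t v) (κ • 𝓕.σ i t z) (κ • 𝓕.σ i t (θ (v, (t, z)))) := by
  have hs : ∀ s ∈ Icc (0 : ℝ) 1, (s : ℂ) • v ∈ ball (0 : W) r := by
    intro s hs
    rw [mem_ball_zero_iff, norm_smul, Complex.norm_real, Real.norm_of_nonneg hs.1]
    exact (mul_le_of_le_one_left (norm_nonneg v) hs.2).trans_lt (mem_ball_zero_iff.1 hv)
  have htT : t ∈ T' := (hθ v hv t ht z hz).1
  refine ⟨fun s => κ • 𝓕.σ i t (θ ((s : ℂ) • v, (t, z))), ?_, ?_, ?_, ?_⟩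
  · intro s hs'
    obtain ⟨-, -, h1, h2, -, -⟩ := hθ _ (hs s hs') t ht z hz
    have h3 : ContinuousAt (fun s : ℝ => θ ((s : ℂ) • v, (t, z))) s := by
      have h4 : ContinuousAt (fun s : ℝ => (((s : ℂ) • v, (t, z)) : W × (Cm p × Cm d))) s := by
        fun_prop
      exact ContinuousAt.comp (g := θ) h1.continuousAt h4
    have h5 := (cont_sigma κ i (hI.sub htT) h2).tendsto.comp
      ((continuousAt_const (y := t)).tendsto.prodMk_nhds h3)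
    exact (show ContinuousAt (fun s : ℝ => κ • 𝓕.σ i t (θ ((s : ℂ) • v, (t, z)))) s
      from h5).continuousWithinAt
  · simp only [Complex.ofReal_zero, zero_smul]
    rw [(hθ v hv t ht z hz).2.2.2.2.2]
  · simp only [Complex.ofReal_one, one_smul]
  · intro s hs'
    obtain ⟨-, -, -, -, h1, -⟩ := hθ _ (hs s hs') t ht z hz
    show F t (κ • 𝓕.σ i t (θ ((s : ℂ) • v, (t, z)))) = F t (κ • 𝓕.σ i t z) + (s : ℂ) • J t v
    rw [hI.add t htT, hI.add t htT, h1, _root_.map_smul]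
    abel

/-- small flows, jointly continuous -/
theorem small {t₀ : Cm p} (ht₀ : t₀ ∈ T') : ∃ (ε : ℝ) (τ : W × (Cm p × E) → E), 0 < ε ∧
    ball t₀ ε ⊆ T' ∧ (∀ t ∈ ball t₀ ε, ∀ v ∈ ball (0 : W) ε, ∀ e,
      Pth (F t) (J t v) e (τ (v, (t, e)))) ∧
    ∀ t ∈ ball t₀ ε, ∀ v ∈ ball (0 : W) ε, ∀ e, ContinuousAt τ (v, (t, e)) := by
  classical
  obtain ⟨ε₀, hε₀, hbox⟩ := hI.boxes (W := W) ht₀
  obtain ⟨ε₁, hε₁, hT⟩ := Metric.isOpen_iff.1 hI.isOpen t₀ ht₀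
  set ε := min ε₀ ε₁ with hε
  have hε0 : 0 < ε := lt_min hε₀ hε₁
  have hTε : ball t₀ ε ⊆ T' := (ball_subset_ball (min_le_right _ _)).trans hT
  let τ : W × (Cm p × E) → E := fun q =>
    if h : ∃ e', Pth (F q.2.1) (J q.2.1 q.1) q.2.2 e' then h.choose else q.2.2
  have hτ : ∀ t ∈ T', ∀ v e e', Pth (F t) (J t v) e e' → τ (v, (t, e)) = e' := by
    intro t ht v e e' h
    have h1 : ∃ e', Pth (F t) (J t v) e e' := ⟨e', h⟩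
    have h2 : τ (v, (t, e)) = h1.choose := dif_pos h1
    rw [h2]
    exact h1.choose_spec.unique (hI.loc_inj ht) h
  refine ⟨ε, τ, hε0, hTε, fun t ht v hv e => ?_, fun t ht v hv e => ?_⟩
  · obtain ⟨κ, i, z, hz, rfl⟩ := 𝓕.cover t (hI.sub (hTε ht)) e
    obtain ⟨z₀, r, hr, hzz, θ, hθ⟩ := hbox i z hz.le
    have hεr : ε ≤ r := (min_le_left _ _).trans hr
    have h1 := hI.pth_box hθ (ball_subset_ball hεr hv) (ball_subset_ball hεr ht) hzz κ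
    rw [hτ t (hTε ht) _ _ _ h1]
    exact h1
  · obtain ⟨κ, i, z, hz, rfl⟩ := 𝓕.cover t (hI.sub (hTε ht)) e
    obtain ⟨z₀, r, hr, hzz, θ, hθ⟩ := hbox i z hz.le
    have hεr : ε ≤ r := (min_le_left _ _).trans hr
    have hv' := ball_subset_ball hεr hv
    have ht' := ball_subset_ball hεr ht
    obtain ⟨-, h2, h3, h4, -, -⟩ := hθ v hv' t ht' z hzz
    refine cont_of (hI.sub (hTε ht)) κ κ i i h2 h3.continuousAt h4 ?_
    have h5 : (ball (0 : W) r) ×ˢ ((ball t₀ r) ×ˢ (ball z₀ r)) ∈ 𝓝 (v, (t, z)) :=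
      prod_mem_nhds (isOpen_ball.mem_nhds hv')
        (prod_mem_nhds (isOpen_ball.mem_nhds ht') (isOpen_ball.mem_nhds hzz))
    filter_upwards [h5] with q hq
    obtain ⟨q1, q2, q3⟩ := hq
    exact hτ _ (hθ _ q1 _ q2 _ q3).1 _ _ _ (hI.pth_box hθ q1 q2 q3 κ)

omit hI [FiniteDimensional ℂ W] [FiniteDimensional ℂ V] in
/-- `J t` as a real linear map -/
def JR (J : Cm p → W →L[ℂ] V) (t : Cm p) : W →ₗ[ℝ] V := ((J t).restrictScalars ℝ : W →L[ℝ] V)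

theorem pact {t₀ : Cm p} {ε : ℝ} {τ : W × (Cm p × E) → E} (hT : ball t₀ ε ⊆ T')
    (hP : ∀ t ∈ ball t₀ ε, ∀ v ∈ ball (0 : W) ε, ∀ e, Pth (F t) (J t v) e (τ (v, (t, e))))
    (hc : ∀ t ∈ ball t₀ ε, ∀ v ∈ ball (0 : W) ε, ∀ e, ContinuousAt τ (v, (t, e))) {t : Cm p}
    (ht : t ∈ ball t₀ ε) (hε : 0 < ε) : PAct (F t) (JR J t) ε fun v e => τ (v, (t, e)) where
  zero e := by
    have h1 := hP t ht 0 (mem_ball_self hε) e
    refine h1.unique (hI.loc_inj (hT ht)) ⟨fun _ => e, continuousOn_const, rfl, rfl, fun s _ => ?_⟩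
    rw [map_zero, smul_zero, add_zero]
  lift v hv e := by
    obtain ⟨c, h1, h2, h3, h4⟩ := hP t ht v (mem_ball_zero_iff.2 hv) e
    have h5 := h4 1 ⟨zero_le_one, le_rfl⟩
    rw [h3, Complex.ofReal_one, one_smul] at h5
    exact h5
  cont := by
    rintro ⟨v, e⟩ ⟨hv, -⟩
    have h1 : ContinuousAt (fun q : W × E => (q.1, (t, q.2))) (v, e) := by fun_prop
    exact (ContinuousAt.comp (g := τ) (f := fun q : W × E => (q.1, (t, q.2)))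
      (hc t ht v hv e) h1).continuousWithinAt

/-- **The flow** -/
theorem exists_flow : ∃ act : W × (Cm p × E) → E, (∀ t ∈ T', ∀ e, act (0, (t, e)) = e) ∧
    (∀ t ∈ T', ∀ v e, F t (act (v, (t, e))) = F t e + J t v) ∧
    (∀ t ∈ T', ∀ v v' e, act (v + v', (t, e)) = act (v, (t, act (v', (t, e))))) ∧
    ∀ t ∈ T', ∀ v e, ContinuousAt act (v, (t, e)) := by
  classical
  have hsmall : ∀ t₀ : Cm p, ∃ (ε : ℝ) (τ : W × (Cm p × E) → E), t₀ ∈ T' → 0 < ε ∧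
      ball t₀ ε ⊆ T' ∧ (∀ t ∈ ball t₀ ε, ∀ v ∈ ball (0 : W) ε, ∀ e,
        Pth (F t) (J t v) e (τ (v, (t, e)))) ∧
      ∀ t ∈ ball t₀ ε, ∀ v ∈ ball (0 : W) ε, ∀ e, ContinuousAt τ (v, (t, e)) := by
    intro t₀
    by_cases ht₀ : t₀ ∈ T'
    · obtain ⟨ε, τ, h⟩ := hI.small (W := W) ht₀
      exact ⟨ε, τ, fun _ => h⟩
    · exact ⟨1, fun q => q.2.2, fun h => absurd h ht₀⟩
  choose ε τ hsm using hsmall
  have hε := fun t₀ ht₀ => (hsm t₀ ht₀).1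
  have hT := fun t₀ ht₀ => (hsm t₀ ht₀).2.1
  have hP := fun t₀ ht₀ => (hsm t₀ ht₀).2.2.1
  have hc := fun t₀ ht₀ => (hsm t₀ ht₀).2.2.2
  have hpact := fun (t : Cm p) (ht : t ∈ T') =>
    hI.pact (hT t ht) (hP t ht) (hc t ht) (mem_ball_self (hε t ht)) (hε t ht)
  have hact : ∀ t : Cm p, ∃ act : W → E → E, t ∈ T' →
      Continuous (fun p : W × E => act p.1 p.2) ∧
      (∀ e, act 0 e = e) ∧ (∀ v e, F t (act v e) = F t e + JR J t v) ∧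
      ∀ v w e, act (v + w) e = act v (act w e) := by
    intro t
    by_cases ht : t ∈ T'
    · obtain ⟨act, h⟩ := exists_act (hI.loc_inj ht) (hε t ht) (hpact t ht)
      exact ⟨act, fun _ => h⟩
    · exact ⟨fun _ e => e, fun h => absurd h ht⟩
  choose act hac using hact
  have h1 := fun t ht => (hac t ht).1
  have h2 := fun t ht => (hac t ht).2.1
  have h3 := fun t ht => (hac t ht).2.2.1
  have h4 := fun t ht => (hac t ht).2.2.2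
  refine ⟨fun q => act q.2.1 q.1 q.2.2, h2, h3, h4, fun t₀ ht₀ v₀ e₀ => ?_⟩
  -- joint continuity
  obtain ⟨n, hn⟩ := exists_nat_gt (‖v₀‖ / ε t₀)
  have hn0 : (0 : ℝ) < n := lt_of_le_of_lt (div_nonneg (norm_nonneg _) (hε t₀ ht₀).le) hn
  have hn1 : 0 < n := by exact_mod_cast hn0
  rw [div_lt_iff₀ (hε t₀ ht₀)] at hn
  have hk : ∀ k : ℕ, ∀ v ∈ ball (0 : W) (n * ε t₀), ∀ t ∈ ball t₀ (ε t₀), ∀ e,
      ContinuousAt (fun q : W × (Cm p × E) =>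
        (fun e => τ t₀ ((n : ℝ)⁻¹ • q.1, (q.2.1, e)))^[k] q.2.2) (v, (t, e)) := by
    intro k v hv t ht e
    have hsm : (n : ℝ)⁻¹ • v ∈ ball (0 : W) (ε t₀) := by
      rw [mem_ball_zero_iff, norm_smul, norm_inv, Real.norm_of_nonneg hn0.le,
        inv_mul_lt_iff₀ hn0]
      exact mem_ball_zero_iff.1 hv
    induction k with
    | zero =>
      simp only [Function.iterate_zero, id_eq]
      fun_prop
    | succ k ih =>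
      simp only [Function.iterate_succ_apply']
      have k1 : ContinuousAt (fun q : W × (Cm p × E) => ((n : ℝ)⁻¹ • q.1, (q.2.1,
          (fun e => τ t₀ ((n : ℝ)⁻¹ • q.1, (q.2.1, e)))^[k] q.2.2))) (v, (t, e)) := by
        have a1 : ContinuousAt (fun q : W × (Cm p × E) => (n : ℝ)⁻¹ • q.1) (v, (t, e)) := by
          fun_prop
        have a2 : ContinuousAt (fun q : W × (Cm p × E) => q.2.1) (v, (t, e)) := by fun_prop
        exact a1.prodMk (a2.prodMk ih)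
      exact ContinuousAt.comp (g := τ t₀) (hc t₀ ht₀ t ht _ hsm _) k1
  have heq : ∀ t ∈ ball t₀ (ε t₀), ∀ v ∈ ball (0 : W) (n * ε t₀), ∀ e,
      act t v e = (fun e => τ t₀ ((n : ℝ)⁻¹ • v, (t, e)))^[n] e := by
    intro t ht v hv e
    have k1 : PAct (F t) (JR J t) (ε t₀) fun v e => τ t₀ (v, (t, e)) :=
      hI.pact (hT t₀ ht₀) (hP t₀ ht₀) (hc t₀ ht₀) ht (hε t₀ ht₀)
    have k2 := k1.mul (a' := fun v e => τ t₀ (v, (t, e))) n hn1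
    have k3 : PAct (F t) (JR J t) (‖v‖ + 1) (act t) :=
      { zero := h2 t (hT t₀ ht₀ ht)
        lift := fun v _ e => h3 t (hT t₀ ht₀ ht) v e
        cont := (h1 t (hT t₀ ht₀ ht)).continuousOn }
    exact k3.unique (hI.loc_inj (hT t₀ ht₀ ht)) k2 (by linarith) (mem_ball_zero_iff.1 hv) e
  have hv₀ : v₀ ∈ ball (0 : W) (n * ε t₀) := mem_ball_zero_iff.2 hn
  refine (hk n v₀ hv₀ t₀ (mem_ball_self (hε t₀ ht₀)) e₀).congr ?_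
  have h5 : (ball (0 : W) (n * ε t₀)) ×ˢ ((ball t₀ (ε t₀)) ×ˢ (univ : Set E)) ∈
      𝓝 (v₀, (t₀, e₀)) :=
    prod_mem_nhds (isOpen_ball.mem_nhds hv₀)
      (prod_mem_nhds (isOpen_ball.mem_nhds (mem_ball_self (hε t₀ ht₀))) univ_mem)
  filter_upwards [h5] with q hq
  exact (heq q.2.1 hq.2.1 q.1 hq.1 q.2.2).symm

/-- holomorphy is automatic -/
theorem flow_hol {act : W × (Cm p × E) → E}
    (hF : ∀ t ∈ T', ∀ v e, F t (act (v, (t, e))) = F t e + J t v)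
    (hcont : ∀ t ∈ T', ∀ v e, ContinuousAt act (v, (t, e))) {t₀ : Cm p} (ht₀ : t₀ ∈ T') {v₀ : W}
    {κ κ' : K} {i i' : Fin 𝓕.N} {z₀ z₁ : Cm d} (hz₀ : z₀ ∈ ball (0 : Cm d) 3)
    (hz₁ : z₁ ∈ ball (0 : Cm d) 3)
    (hact : act (v₀, (t₀, κ • 𝓕.σ i t₀ z₀)) = κ' • 𝓕.σ i' t₀ z₁)
    (hc : ∀ κ, ∀ t ∈ T', AnalyticAt ℂ (fun s => c s κ) t) :
    ∃ θ : W × (Cm p × Cm d) → Cm d, AnalyticAt ℂ θ (v₀, (t₀, z₀)) ∧ θ (v₀, (t₀, z₀)) = z₁ ∧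
      ∀ᶠ q in 𝓝 (v₀, (t₀, z₀)), act (q.1, (q.2.1, κ • 𝓕.σ i q.2.1 q.2.2)) =
        κ' • 𝓕.σ i' q.2.1 (θ q) := by
  obtain ⟨m, Φ, hΦ, hΦ'⟩ := flat_chart (hI.hol i' t₀ ht₀ z₁ hz₁) (hI.imm i' t₀ ht₀ z₁ hz₁)
  let R : W × (Cm p × Cm d) → V := fun q =>
    F q.2.1 (𝓕.σ i q.2.1 q.2.2) + c q.2.1 κ + J q.2.1 q.1 - c q.2.1 κ'
  have hRa : AnalyticAt ℂ R (v₀, (t₀, z₀)) := by
    have a1 : AnalyticAt ℂ (fun q : W × (Cm p × Cm d) => F q.2.1 (𝓕.σ i q.2.1 q.2.2))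
        (v₀, (t₀, z₀)) :=
      AnalyticAt.comp' (g := fun q : Cm p × Cm d => F q.1 (𝓕.σ i q.1 q.2))
        (f := fun q : W × (Cm p × Cm d) => q.2) (hI.hol i t₀ ht₀ z₀ hz₀) analyticAt_snd
    have a2 : ∀ κ, AnalyticAt ℂ (fun q : W × (Cm p × Cm d) => c q.2.1 κ) (v₀, (t₀, z₀)) :=
      fun κ => AnalyticAt.comp' (g := fun s => c s κ)
        (f := fun q : W × (Cm p × Cm d) => q.2.1) (hc κ t₀ ht₀)
        (analyticAt_fst.comp' analyticAt_snd)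
    have a3 : AnalyticAt ℂ (fun q : W × (Cm p × Cm d) => J q.2.1 q.1) (v₀, (t₀, z₀)) := by
      have b1 : AnalyticAt ℂ (fun q : W × (Cm p × Cm d) => J q.2.1) (v₀, (t₀, z₀)) :=
        AnalyticAt.comp' (g := J) (f := fun q : W × (Cm p × Cm d) => q.2.1) (hI.holJ t₀ ht₀)
          (analyticAt_fst.comp' analyticAt_snd)
      have b2 : AnalyticAt ℂ (fun q : W × (Cm p × Cm d) => q.1) (v₀, (t₀, z₀)) := analyticAt_fst
      exact (b1.contDiffAt.clm_apply b2.contDiffAt).analyticAt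
    exact ((a1.add (a2 κ)).add a3).sub (a2 κ')
  have hT2 : ∀ᶠ q : W × (Cm p × Cm d) in 𝓝 (v₀, (t₀, z₀)), q.2.1 ∈ T' :=
    ((continuous_fst.comp continuous_snd).tendsto (v₀, (t₀, z₀))).eventually
      (hI.isOpen.mem_nhds ht₀)
  have hR0 : R (v₀, (t₀, z₀)) = F t₀ (𝓕.σ i' t₀ z₁) := by
    have a1 := hF t₀ ht₀ v₀ (κ • 𝓕.σ i t₀ z₀)
    rw [hact, hI.add t₀ ht₀, hI.add t₀ ht₀] at a1
    show F t₀ (𝓕.σ i t₀ z₀) + c t₀ κ + J t₀ v₀ - c t₀ κ' = _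
    rw [← a1, add_sub_cancel_right]
  let θ : W × (Cm p × Cm d) → Cm d := fun q => Φ (q.2.1, m (R q))
  have hθ : AnalyticAt ℂ θ (v₀, (t₀, z₀)) := by
    have a1 : AnalyticAt ℂ (fun q : W × (Cm p × Cm d) => (q.2.1, m (R q))) (v₀, (t₀, z₀)) :=
      (analyticAt_fst.comp' analyticAt_snd).prod ((m.analyticAt _).comp' hRa)
    refine AnalyticAt.comp' (g := Φ) (f := fun q : W × (Cm p × Cm d) => (q.2.1, m (R q))) ?_ a1
    show AnalyticAt ℂ Φ (t₀, m (R (v₀, (t₀, z₀))))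
    rw [hR0]
    exact hΦ
  have hθ0 : θ (v₀, (t₀, z₀)) = z₁ := by
    show Φ (t₀, m (R (v₀, (t₀, z₀)))) = z₁
    rw [hR0]
    exact hΦ'.self_of_nhds
  refine ⟨θ, hθ, hθ0, ?_⟩
  -- the point stays in the sheet `κ' σ i'`
  have hU : {x : Cm p × E | ∃ z, Φ (x.1, m (F x.1 (𝓕.σ i' x.1 z))) = z ∧
      κ' • 𝓕.σ i' x.1 z = x.2} ∈ 𝓝 (t₀, κ' • 𝓕.σ i' t₀ z₁) := by
    rw [← map_smul κ' i' (hI.sub ht₀) hz₁, mem_map]
    filter_upwards [hΦ'] with q hq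
    exact ⟨q.2, hq, rfl⟩
  have hlim : Tendsto (fun q : W × (Cm p × Cm d) =>
      (q.2.1, act (q.1, (q.2.1, κ • 𝓕.σ i q.2.1 q.2.2)))) (𝓝 (v₀, (t₀, z₀)))
      (𝓝 (t₀, κ' • 𝓕.σ i' t₀ z₁)) := by
    have a1 : Tendsto (fun q : W × (Cm p × Cm d) => (q.1, (q.2.1, κ • 𝓕.σ i q.2.1 q.2.2)))
        (𝓝 (v₀, (t₀, z₀))) (𝓝 (v₀, (t₀, κ • 𝓕.σ i t₀ z₀))) :=
      (map_smul3 κ i (hI.sub ht₀) hz₀ v₀).le
    have a2 := (hcont t₀ ht₀ v₀ (κ • 𝓕.σ i t₀ z₀)).tendsto.comp a1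
    rw [hact] at a2
    exact ((continuous_fst.comp continuous_snd).tendsto (v₀, (t₀, z₀))).prodMk_nhds a2
  filter_upwards [hlim.eventually hU, hT2] with q hq hqT
  obtain ⟨z, hz1, hz2⟩ := hq
  have a1 := hF q.2.1 hqT q.1 (κ • 𝓕.σ i q.2.1 q.2.2)
  rw [← hz2, hI.add _ hqT, hI.add _ hqT] at a1
  have a2 : R q = F q.2.1 (𝓕.σ i' q.2.1 z) := by
    show F q.2.1 (𝓕.σ i q.2.1 q.2.2) + c q.2.1 κ + J q.2.1 q.1 - c q.2.1 κ' = _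
    rw [← a1, add_sub_cancel_right]
  have a3 : θ q = z := by
    show Φ (q.2.1, m (R q)) = z
    rw [a2]
    exact hz1
  rw [a3]
  exact hz2.symm

/-- maps which commute with `F` up to an affine map commute with the flow -/
theorem flow_comm {act : W × (Cm p × E) → E} {t t' : Cm p} (ht : t ∈ T')
    (h0 : ∀ e, act (0, (t, e)) = e) (hF : ∀ v e, F t (act (v, (t, e))) = F t e + J t v)
    (hcont : ∀ v e, ContinuousAt act (v, (t, e))) {g : E → E} (hg : Continuous g) {G : V →L[ℂ] V}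
    {b : V} (hGb : ∀ e, F t (g e) = G (F t e) + b) {v v' : W} (hv : J t v' = G (J t v)) (e : E) :
    act (v', (t, g e)) = g (act (v, (t, e))) := by
  have hc1 : ∀ (w : W) (e : E), Continuous fun s : ℝ => act ((s : ℂ) • w, (t, e)) := by
    intro w e
    rw [continuous_iff_continuousAt]
    intro s
    have h4 : ContinuousAt (fun s : ℝ => (((s : ℂ) • w, (t, e)) : W × (Cm p × E))) s := by
      fun_prop
    exact ContinuousAt.comp (g := act) (hcont _ _) h4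
  have := lift_unique (hI.loc_inj ht) (isPreconnected_univ (α := ℝ))
    (g₁ := fun s : ℝ => act ((s : ℂ) • v', (t, g e)))
    (g₂ := fun s : ℝ => g (act ((s : ℂ) • v, (t, e)))) (hc1 v' (g e)).continuousOn
    (hg.comp (hc1 v e)).continuousOn (fun s _ => by
      simp only [hF, hGb, map_add, _root_.map_smul, hv]
      abel) (a := 0) (mem_univ _)
    (by simp only [Complex.ofReal_zero, zero_smul, h0]) 1 (mem_univ _)
  simpa using this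

end ImmF

end Vale.Agent.P281.H303.UD
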