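import Vale.Agent.P281.H383.UD.Fin
import Vale.Agent.P281.H303.UD.Dich
import Vale.Agent.P281.H349.UK.Lift

/-!
# P281, project T-UD (helper303): immersed coverings of the fibres of any degree
-/

open Set Filter Metric Vale.Agent.P281 Vale.Agent.P281.H713
open Vale.Agent.P272.K (Chart IsKahler IsHermitian)
open Vale.Agent.P281.H713.TZ Vale.Agent.P281.H64
open Vale.Agent.P281.H64.Gen
open Vale.Agent.P281.H64.Thin (IsThinSet IsProperFibration)
open Vale.Agent.P281.H64.TU (IsGen)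
open scoped Topology ContDiff Manifold

noncomputable section

namespace Vale.Agent.P281.H303.UD

/-- a locally injective map of a compact space has fibres of bounded cardinality -/
theorem exists_sheets {F X : Type} [TopologicalSpace F] [CompactSpace F] {i : F → X}
    (h : ∀ x, ∃ N ∈ 𝓝 x, InjOn i N) : ∃ k : ℕ, ∀ x, (i ⁻¹' {x}).encard ≤ k := by
  classical
  choose N hN hinj using h
  obtain ⟨t, ht⟩ := CompactSpace.elim_nhds_subcover N hN
  have h1 : ∀ z, ∃ y ∈ t, z ∈ N y := by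
    intro z
    have h2 : z ∈ ⋃ y ∈ t, N y := by rw [ht]; trivial
    obtain ⟨y, hy, hz⟩ := mem_iUnion₂.1 h2
    exact ⟨y, hy, hz⟩
  choose c hc hcN using h1
  refine ⟨t.card, fun x => ?_⟩
  rw [← Set.encard_coe_eq_coe_finsetCard]
  refine Set.encard_le_encard_of_injOn (f := c) (fun z _ => hc z) ?_
  intro z hz z' hz' he
  have h2 : z' ∈ N (c z) := by rw [he]; exact hcN z'
  exact hinj (c z) (hcN z) h2 ((show i z = x from hz).trans (show i z' = x from hz').symm)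

/-- **T-UD**: the fibres with an immersed covering of any degree -/
def TUVStmt : Prop :=
  ∀ (p d : ℕ) (X Y : Type) [TopologicalSpace X] [ChartedSpace (Cm (p + d)) X]
    [TopologicalSpace Y] [ChartedSpace (Cm p) Y] (f : X → Y) (Δ : Set X → ℝ), 0 < d →
    H511.Surf.IsFibration (Cm (p + d)) (Cm p) f Δ →
    (∃ w : Chart (p + d) X → Cm (p + d) → Matrix (Fin (p + d)) (Fin (p + d)) ℂ, IsKahler w) →
    ∃ H : ℕ → Set Y, (∀ k, IsThinSet (Cm p) (H k)) ∧ ∀ y, (∀ k, y ∉ H k) →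
      ∀ (F : Type) [TopologicalSpace F] [T2Space F] [ChartedSpace (Cm d) F] (i : F → X),
        H511.Surf.IsFibre (Cm (p + d)) (Cm d) f y i → IsGen d F →
        TZ.S.kodR (Cm (p + d)) (Cm d) i Δ + TZ.S.kodF (p + d) p Δ (id : X → X) f ≤
          TZ.S.kodX (Cm (p + d)) Δ

theorem tuv : TUVStmt := by
  classical
  intro p d X Y _ _ _ _ f Δ hd h hw
  obtain ⟨w, hw⟩ := hw
  have : T2Space X := h.hausdorff.1
  have : T2Space Y := h.hausdorff.2
  have : CompactSpace X := h.compact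
  have : ConnectedSpace X := h.connected
  have : IsManifold 𝓘(ℂ, Cm (p + d)) ω X := h.manifold.1
  have : IsManifold 𝓘(ℂ, Cm p) ω Y := h.manifold.2
  have hsurj : Function.Surjective f := fun y => (h.fibres y).nonempty
  have : PreconnectedSpace Y := by
    rw [preconnectedSpace_iff_univ, ← hsurj.range_eq]
    exact isPreconnected_range h.hol.continuous
  have : CompactSpace Y := hsurj.compactSpace h.hol.continuous
  obtain ⟨S₁, hS₁, hP⟩ := H303.UF.crit (p + d) p X Y f h.hol h.fibres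
  have hP₁ := hP S₁ subset_rfl hS₁.1
  have key : ∀ k : ℕ, ∃ H : ℕ → Set Y, (∀ j, IsThinSet (Cm p) (H j)) ∧
      ∀ y, y ∉ S₁ → (∀ j, y ∉ H j) → IsImmE (p + d) p d k f y →
      ∀ (F : Type) [TopologicalSpace F] [T2Space F] [ChartedSpace (Cm d) F] (i : F → X),
        H511.Surf.IsFibre (Cm (p + d)) (Cm d) f y i →
        TZ.S.kodR (Cm (p + d)) (Cm d) i Δ + TZ.S.kodF (p + d) p Δ (id : X → X) f ≤
          TZ.S.kodX (Cm (p + d)) Δ := by
    intro k
    by_cases hk : ∃ y, y ∉ S₁ ∧ IsImmE (p + d) p d k f y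
    · obtain ⟨y₁, hy₁, h₁⟩ := hk
      obtain ⟨H, hH, hm⟩ := H383.UD.tud_core hd h hw hP
        (immDich TK.inputs hd h.hol hw hP₁ hS₁ hy₁ h₁)
      exact ⟨H, hH, fun y _ hy _ => hm y hy⟩
    · exact ⟨fun _ => ∅, fun _ => H150.Gen.thin_empty, fun y hy _ h₁ => absurd ⟨y, hy, h₁⟩ hk⟩
  choose H hH hm using key
  have hST : H150.Gen.SThin (Cm p) (S₁ ∪ ⋃ k, ⋃ j, H k j) := by
    have h1 : H150.Gen.SThin (Cm p) S₁ := hS₁.2
    exact h1.union (H150.Gen.SThin.iUnion fun k => ⟨H k, hH k, subset_rfl⟩)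
  obtain ⟨K, hK, hsubK⟩ := hST
  refine ⟨K, hK, fun y hy F _ _ _ i hi hg => ?_⟩
  have hyn : y ∉ S₁ ∪ ⋃ k, ⋃ j, H k j := by
    intro hc
    obtain ⟨j, hj⟩ := mem_iUnion.1 (hsubK hc)
    exact hy j hj
  have hyS : y ∉ S₁ := fun hc => hyn (Or.inl hc)
  have hyH : ∀ k j, y ∉ H k j := fun k j hc => hyn (Or.inr (mem_iUnion₂.2 ⟨k, j, hc⟩))
  have := hi.compact
  have := hi.manifold
  obtain ⟨k, hk⟩ := exists_sheets (i := i) (fun x => by
    obtain ⟨R, -, hRi⟩ := H349.UK.exists_retr (hi.hol x) (hi.immersion x)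
    refine ⟨_, hRi, ?_⟩
    intro x₁ hx₁ x₂ hx₂ he
    have a1 : R (i x₁) = x₁ := hx₁
    have a2 : R (i x₂) = x₂ := hx₂
    rw [← a1, ← a2, he])
  exact hm k y hyS (hyH k)
    (H83.fibImm_of H152.K.ab p d k X Y f S₁ hd h.hol hP₁ y hyS F i hi hk hg) F i hi

end Vale.Agent.P281.H303.UD
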