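import Vale.Agent.P281.MF.Hol
import Mathlib.Analysis.Calculus.InverseFunctionTheorem.ContDiff

/-!
# P281, T-UD (helper303): the local flow of constant vector fields on an immersed manifold, with
parameters
-/

open Set Filter Metric
open scoped Topology ContDiff

set_option linter.all false

noncomputable section

namespace Vale.Agent.P281.H303.UD

variable {P Z W V : Type} [NormedAddCommGroup P] [NormedSpace ℂ P] [FiniteDimensional ℂ P]
  [NormedAddCommGroup Z] [NormedSpace ℂ Z] [FiniteDimensional ℂ Z]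
  [NormedAddCommGroup W] [NormedSpace ℂ W] [FiniteDimensional ℂ W]
  [NormedAddCommGroup V] [NormedSpace ℂ V] [FiniteDimensional ℂ V]

/-- a left inverse of an injective linear map -/
theorem exists_left {A : Z →L[ℂ] V} (hA : ∀ ξ, A ξ = 0 → ξ = 0) :
    ∃ m : V →L[ℂ] Z, m.comp A = ContinuousLinearMap.id ℂ Z := by
  have h1 : LinearMap.ker (A : Z →ₗ[ℂ] V) = ⊥ := by
    rw [LinearMap.ker_eq_bot']
    exact hA
  obtain ⟨m, hm⟩ := (A : Z →ₗ[ℂ] V).exists_leftInverse_of_injective h1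
  refine ⟨LinearMap.toContinuousLinearMap m, ?_⟩
  ext ξ
  exact DFunLike.congr_fun hm ξ

/-- flat charts, with parameters -/
theorem flat_chart {H : P × Z → V} {t₀ : P} {z₀ : Z} (hH : AnalyticAt ℂ H (t₀, z₀))
    (himm : ∀ ξ, fderiv ℂ H (t₀, z₀) (0, ξ) = 0 → ξ = 0) :
    ∃ (m : V →L[ℂ] Z) (Φ : P × Z → Z), AnalyticAt ℂ Φ (t₀, m (H (t₀, z₀))) ∧
      ∀ᶠ q in 𝓝 (t₀, z₀), Φ (q.1, m (H q)) = q.2 := by
  have : CompleteSpace V := FiniteDimensional.complete ℂ V
  have : CompleteSpace P := FiniteDimensional.complete ℂ P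
  have : CompleteSpace Z := FiniteDimensional.complete ℂ Z
  let A : P × Z → Z →L[ℂ] V := fun q => (fderiv ℂ H q).comp (ContinuousLinearMap.inr ℂ P Z)
  obtain ⟨m, hm⟩ := exists_left (A := A (t₀, z₀)) fun ξ hξ => himm ξ hξ
  let Ψ : P × Z → P × Z := fun q => (q.1, m (H q))
  have hΨ : ContDiffAt ℂ ω Ψ (t₀, z₀) :=
    contDiffAt_fst.prodMk (m.contDiff.contDiffAt.comp _ hH.contDiffAt)
  let B : P →L[ℂ] Z := m.comp ((fderiv ℂ H (t₀, z₀)).comp (ContinuousLinearMap.inl ℂ P Z))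
  let e : (P × Z) ≃L[ℂ] (P × Z) :=
    { toLinearEquiv :=
        { toFun := fun q => (q.1, B q.1 + q.2)
          invFun := fun q => (q.1, q.2 - B q.1)
          left_inv := fun q => by simp
          right_inv := fun q => by simp
          map_add' := fun q q' => by
            simp only [Prod.fst_add, map_add, Prod.snd_add, Prod.mk_add_mk, Prod.mk.injEq, true_and]
            abel
          map_smul' := fun c q => by simp [smul_add] }
      continuous_toFun := by
        show Continuous fun q : P × Z => (q.1, B q.1 + q.2)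
        fun_prop
      continuous_invFun := by
        show Continuous fun q : P × Z => (q.1, q.2 - B q.1)
        fun_prop }
  have hd : HasFDerivAt Ψ (e : (P × Z) →L[ℂ] (P × Z)) (t₀, z₀) := by
    have h1 : HasFDerivAt Ψ ((ContinuousLinearMap.fst ℂ P Z).prod
        (m.comp (fderiv ℂ H (t₀, z₀)))) (t₀, z₀) :=
      hasFDerivAt_fst.prodMk (m.hasFDerivAt.comp _ hH.differentiableAt.hasFDerivAt)
    refine h1.congr_fderiv ?_
    ext q
    · simp [e]
    · show m (fderiv ℂ H (t₀, z₀) (q, 0)) = B q + 0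
      rw [add_zero]
      rfl
    · simp [e]
    · show m (fderiv ℂ H (t₀, z₀) (0, q)) = B 0 + q
      rw [map_zero, zero_add]
      exact DFunLike.congr_fun hm q
  have hΦ : ContDiffAt ℂ ω (hΨ.localInverse hd (by simp)) (Ψ (t₀, z₀)) :=
    hΨ.to_localInverse hd (by simp)
  have hS : HasStrictFDerivAt Ψ (e : (P × Z) →L[ℂ] (P × Z)) (t₀, z₀) :=
    hΨ.hasStrictFDerivAt' hd (by simp)
  have hL : ∀ᶠ q in 𝓝 (t₀, z₀), hΨ.localInverse hd (by simp) (Ψ q) = q :=
    hS.eventually_left_inverse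
  refine ⟨m, fun q => (hΨ.localInverse hd (by simp) q).2, analyticAt_snd.comp' hΦ.analyticAt, ?_⟩
  filter_upwards [hL] with q hq
  exact congrArg Prod.snd hq

theorem local_flow {H : P × Z → V} {J : P → W →L[ℂ] V} {t₀ : P} {z₀ : Z}
    (hH : AnalyticAt ℂ H (t₀, z₀)) (hJ : AnalyticAt ℂ J t₀)
    (himm : ∀ ξ, fderiv ℂ H (t₀, z₀) (0, ξ) = 0 → ξ = 0)
    (htan : ∀ᶠ q in 𝓝 (t₀, z₀), ∀ v, ∃ ξ, fderiv ℂ H q (0, ξ) = J q.1 v) :
    ∃ θ : P × Z × W → Z, (∀ᶠ q in 𝓝 (t₀, z₀, (0 : W)), AnalyticAt ℂ θ q ∧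
      H (q.1, θ q) = H (q.1, q.2.1) + J q.1 q.2.2) ∧
      ∀ᶠ q in 𝓝 (t₀, z₀), θ (q.1, q.2, 0) = q.2 := by
  have : CompleteSpace V := FiniteDimensional.complete ℂ V
  have : CompleteSpace P := FiniteDimensional.complete ℂ P
  have : CompleteSpace Z := FiniteDimensional.complete ℂ Z
  -- the partial derivative
  let A : P × Z → Z →L[ℂ] V := fun q => (fderiv ℂ H q).comp (ContinuousLinearMap.inr ℂ P Z)
  obtain ⟨m, hm⟩ := exists_left (A := A (t₀, z₀)) fun ξ hξ => himm ξ hξ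
  -- the chart
  let Ψ : P × Z → P × Z := fun q => (q.1, m (H q))
  have hΨ : ContDiffAt ℂ ω Ψ (t₀, z₀) :=
    contDiffAt_fst.prodMk (m.contDiff.contDiffAt.comp _ hH.contDiffAt)
  let B : P →L[ℂ] Z := m.comp ((fderiv ℂ H (t₀, z₀)).comp (ContinuousLinearMap.inl ℂ P Z))
  let e : (P × Z) ≃L[ℂ] (P × Z) :=
    { toLinearEquiv :=
        { toFun := fun q => (q.1, B q.1 + q.2)
          invFun := fun q => (q.1, q.2 - B q.1)
          left_inv := fun q => by simp
          right_inv := fun q => by simp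
          map_add' := fun q q' => by
            simp only [Prod.fst_add, map_add, Prod.snd_add, Prod.mk_add_mk, Prod.mk.injEq, true_and]
            abel
          map_smul' := fun c q => by simp [smul_add] }
      continuous_toFun := by
        show Continuous fun q : P × Z => (q.1, B q.1 + q.2)
        fun_prop
      continuous_invFun := by
        show Continuous fun q : P × Z => (q.1, q.2 - B q.1)
        fun_prop }
  have hd : HasFDerivAt Ψ (e : (P × Z) →L[ℂ] (P × Z)) (t₀, z₀) := by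
    have h1 : HasFDerivAt Ψ ((ContinuousLinearMap.fst ℂ P Z).prod
        (m.comp (fderiv ℂ H (t₀, z₀)))) (t₀, z₀) :=
      hasFDerivAt_fst.prodMk (m.hasFDerivAt.comp _ hH.differentiableAt.hasFDerivAt)
    refine h1.congr_fderiv ?_
    ext q
    · simp [e]
    · show m (fderiv ℂ H (t₀, z₀) (q, 0)) = B q + 0
      rw [add_zero]
      rfl
    · simp [e]
    · show m (fderiv ℂ H (t₀, z₀) (0, q)) = B 0 + q
      rw [map_zero, zero_add]
      exact DFunLike.congr_fun hm q
  let Φ := hΨ.localInverse hd (by simp)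
  have hΦ : ContDiffAt ℂ ω Φ (Ψ (t₀, z₀)) := hΨ.to_localInverse hd (by simp)
  have hΦ0 : Φ (Ψ (t₀, z₀)) = (t₀, z₀) := hΨ.localInverse_apply_image hd (by simp)
  have hS : HasStrictFDerivAt Ψ (e : (P × Z) →L[ℂ] (P × Z)) (t₀, z₀) :=
    hΨ.hasStrictFDerivAt' hd (by simp)
  have hR : ∀ᶠ q in 𝓝 (Ψ (t₀, z₀)), Ψ (Φ q) = q := hS.eventually_right_inverse
  have hL : ∀ᶠ q in 𝓝 (t₀, z₀), Φ (Ψ q) = q := hS.eventually_left_inverse
  -- the flow
  let α : P × Z × W → P × Z := fun q => (q.1, m (H (q.1, q.2.1)) + m (J q.1 q.2.2))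
  let θ : P × Z × W → Z := fun q => (Φ (α q)).2
  have hα0 : α (t₀, z₀, 0) = Ψ (t₀, z₀) := by
    show (t₀, m (H (t₀, z₀)) + m (J t₀ 0)) = (t₀, m (H (t₀, z₀)))
    rw [map_zero, map_zero, add_zero]
  have hα : AnalyticAt ℂ α (t₀, z₀, 0) := by
    have h1 : AnalyticAt ℂ (fun q : P × Z × W => H (q.1, q.2.1)) (t₀, z₀, 0) := by
      have h2 : AnalyticAt ℂ (fun q : P × Z × W => (q.1, q.2.1)) (t₀, z₀, 0) :=
        analyticAt_fst.prod (analyticAt_fst.comp' analyticAt_snd)
      exact AnalyticAt.comp' (g := H) (f := fun q : P × Z × W => (q.1, q.2.1)) hH h2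
    have h3 : AnalyticAt ℂ (fun q : P × Z × W => J q.1) (t₀, z₀, 0) := hJ.comp' analyticAt_fst
    have h4 : AnalyticAt ℂ (fun q : P × Z × W => q.2.2) (t₀, z₀, 0) :=
      analyticAt_snd.comp' analyticAt_snd
    have h5 : AnalyticAt ℂ (fun q : P × Z × W => J q.1 q.2.2) (t₀, z₀, 0) :=
      (h3.contDiffAt.clm_apply h4.contDiffAt).analyticAt
    exact analyticAt_fst.prod
      (((m.analyticAt _).comp' h1).add ((m.analyticAt _).comp' h5))
  have hθ : AnalyticAt ℂ θ (t₀, z₀, 0) := by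
    have h1 : AnalyticAt ℂ Φ (α (t₀, z₀, 0)) := by
      rw [hα0]
      exact hΦ.analyticAt
    exact analyticAt_snd.comp' (h1.comp' hα)
  have hθ0 : ∀ᶠ q in 𝓝 (t₀, z₀), θ (q.1, q.2, 0) = q.2 := by
    filter_upwards [hL] with q hq
    show (Φ (q.1, m (H (q.1, q.2)) + m (J q.1 0))).2 = q.2
    rw [map_zero, map_zero, add_zero]
    exact congrArg Prod.snd hq
  have hθ00 : θ (t₀, z₀, 0) = z₀ := hθ0.self_of_nhds
  -- the chart coordinates of the flow
  have hαt : Tendsto α (𝓝 (t₀, z₀, 0)) (𝓝 (Ψ (t₀, z₀))) := by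
    rw [← hα0]
    exact hα.continuousAt
  have hc1 : ∀ᶠ q in 𝓝 (t₀, z₀, (0 : W)), m (H (q.1, θ q)) =
      m (H (q.1, q.2.1)) + m (J q.1 q.2.2) := by
    filter_upwards [hαt.eventually hR] with q hq
    have h1 : (Φ (α q)).1 = q.1 := congrArg Prod.fst hq
    have h2 : m (H (Φ (α q))) = m (H (q.1, q.2.1)) + m (J q.1 q.2.2) := congrArg Prod.snd hq
    have h3 : (q.1, θ q) = Φ (α q) := Prod.ext h1.symm rfl
    rw [h3]
    exact h2
  -- injectivity near the point
  have hβt : Tendsto (fun q : P × Z × W => (q.1, θ q)) (𝓝 (t₀, z₀, 0)) (𝓝 (t₀, z₀)) := by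
    have h1 : Tendsto θ (𝓝 (t₀, z₀, 0)) (𝓝 z₀) := by
      have := hθ.continuousAt.tendsto
      rwa [hθ00] at this
    exact (continuous_fst.tendsto (t₀, z₀, (0 : W))).prodMk_nhds h1
  have hinj : ∀ᶠ q in 𝓝 (t₀, z₀), ∀ ξ, m (A q ξ) = 0 → ξ = 0 := by
    have h1 : ContinuousAt (fun q => m.comp (A q)) (t₀, z₀) := by
      have h2 : ContinuousAt A (t₀, z₀) :=
        ((ContinuousLinearMap.compL ℂ Z (P × Z) V).flip
          (ContinuousLinearMap.inr ℂ P Z)).continuous.continuousAt.comp hH.fderiv.continuousAt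
      exact (ContinuousLinearMap.compL ℂ Z V Z m).continuous.continuousAt.comp h2
    have h2 : ∀ᶠ q in 𝓝 (t₀, z₀), ‖m.comp (A q) - ContinuousLinearMap.id ℂ Z‖ < 1 := by
      have h3 : Tendsto (fun q => ‖m.comp (A q) - ContinuousLinearMap.id ℂ Z‖) (𝓝 (t₀, z₀))
          (𝓝 ‖m.comp (A (t₀, z₀)) - ContinuousLinearMap.id ℂ Z‖) :=
        ((h1.sub continuousAt_const).norm)
      rw [hm, sub_self, norm_zero] at h3
      exact h3.eventually (gt_mem_nhds one_pos)
    filter_upwards [h2] with q hq ξ hξ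
    by_contra hne
    have h4 : ‖(m.comp (A q) - ContinuousLinearMap.id ℂ Z) ξ‖ ≤
        ‖m.comp (A q) - ContinuousLinearMap.id ℂ Z‖ * ‖ξ‖ := ContinuousLinearMap.le_opNorm _ _
    have h5 : (m.comp (A q) - ContinuousLinearMap.id ℂ Z) ξ = -ξ := by
      show m (A q ξ) - ξ = -ξ
      rw [hξ, zero_sub]
    rw [h5, norm_neg] at h4
    have h6 : 0 < ‖ξ‖ := norm_pos_iff.2 hne
    nlinarith
  -- a ball where everything holds
  have hall : ∀ᶠ q in 𝓝 (t₀, z₀, (0 : W)), (AnalyticAt ℂ θ q ∧ AnalyticAt ℂ H (q.1, θ q)) ∧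
      (m (H (q.1, θ q)) = m (H (q.1, q.2.1)) + m (J q.1 q.2.2)) ∧
      (∀ ξ, m (A (q.1, θ q) ξ) = 0 → ξ = 0) ∧
      (∀ v, ∃ ξ, fderiv ℂ H (q.1, θ q) (0, ξ) = J q.1 v) := by
    filter_upwards [hθ.eventually_analyticAt, hβt.eventually hH.eventually_analyticAt, hc1,
      hβt.eventually hinj, hβt.eventually htan] with q h1 h2 h3 h4 h5
    exact ⟨⟨h1, h2⟩, h3, h4, h5⟩
  refine ⟨θ, ?_, hθ0⟩
  obtain ⟨ε, hε, hb⟩ := Metric.eventually_nhds_iff.1 (hall.and
    (((continuous_fst.prodMk (continuous_fst.comp continuous_snd)).tendsto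
      (t₀, z₀, (0 : W))).eventually hθ0))
  refine Metric.eventually_nhds_iff.2 ⟨ε, hε, ?_⟩
  rintro ⟨t, z, v⟩ hq
  refine ⟨(hb hq).1.1.1, ?_⟩
  rw [Prod.dist_eq, Prod.dist_eq, max_lt_iff, max_lt_iff] at hq
  obtain ⟨ht, hz, hv⟩ := hq
  dsimp only at ht hz hv
  have hbb : ∀ v' ∈ ball (0 : W) ε, dist ((t, z, v') : P × Z × W) (t₀, z₀, 0) < ε := by
    intro v' hv'
    rw [Prod.dist_eq, Prod.dist_eq]
    exact max_lt ht (max_lt hz hv')
  -- the function is constant in `v`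
  have hder : ∀ v' ∈ ball (0 : W) ε,
      HasFDerivAt (fun v => H (t, θ (t, z, v)) - J t v) (0 : W →L[ℂ] V) v' := by
    intro v' hv'
    obtain ⟨⟨⟨h1, h2⟩, h3, h4, h5⟩, -⟩ := hb (hbb v' hv')
    dsimp only at h1 h2 h3 h4 h5
    have k1 : HasFDerivAt (fun v : W => ((t, z, v) : P × Z × W))
        ((ContinuousLinearMap.inr ℂ P (Z × W)).comp (ContinuousLinearMap.inr ℂ Z W)) v' := by
      have k0 : HasFDerivAt (fun v : W => ((z, v) : Z × W)) (ContinuousLinearMap.inr ℂ Z W) v' :=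
        hasFDerivAt_prodMk_right _ _
      exact (hasFDerivAt_prodMk_right t (z, v')).comp v' k0
    have k2 : HasFDerivAt (fun v => θ (t, z, v)) ((fderiv ℂ θ (t, z, v')).comp
        ((ContinuousLinearMap.inr ℂ P (Z × W)).comp (ContinuousLinearMap.inr ℂ Z W))) v' :=
      HasFDerivAt.comp (g := θ) (f := fun v : W => ((t, z, v) : P × Z × W)) v'
        h1.differentiableAt.hasFDerivAt k1
    set D := (fderiv ℂ θ (t, z, v')).comp
        ((ContinuousLinearMap.inr ℂ P (Z × W)).comp (ContinuousLinearMap.inr ℂ Z W)) with hD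
    have k3 : HasFDerivAt (fun v => H (t, θ (t, z, v))) ((A (t, θ (t, z, v'))).comp D) v' := by
      have k4 : HasFDerivAt (fun z : Z => H (t, z)) (A (t, θ (t, z, v'))) (θ (t, z, v')) :=
        h2.differentiableAt.hasFDerivAt.comp _ (hasFDerivAt_prodMk_right t _)
      exact k4.comp v' k2
    have k5 : HasFDerivAt (fun v => m (H (t, θ (t, z, v)))) (m.comp (J t)) v' := by
      have k6 : (fun v => m (H (t, θ (t, z, v)))) =ᶠ[𝓝 v']
          fun v => m (H (t, z)) + m (J t v) := by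
        filter_upwards [isOpen_ball.mem_nhds hv'] with v'' hv''
        exact (hb (hbb v'' hv'')).1.2.1
      exact (((m.comp (J t)).hasFDerivAt).const_add _).congr_of_eventuallyEq k6
    have k7 : m.comp ((A (t, θ (t, z, v'))).comp D) = m.comp (J t) :=
      (m.hasFDerivAt.comp v' k3).unique k5
    have k8 : (A (t, θ (t, z, v'))).comp D = J t := by
      ext x
      obtain ⟨ξ, hξ⟩ := h5 x
      have k9 : m (A (t, θ (t, z, v')) (D x)) = m (J t x) := DFunLike.congr_fun k7 x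
      have k10 : D x = ξ := by
        have k11 : m (A (t, θ (t, z, v')) (D x - ξ)) = 0 := by
          rw [map_sub, map_sub, k9, ← hξ]
          exact sub_self _
        exact sub_eq_zero.1 (h4 _ k11)
      show A (t, θ (t, z, v')) (D x) = J t x
      rw [k10]
      exact hξ
    have k12 := k3.sub ((J t).hasFDerivAt (x := v'))
    rw [k8, sub_self] at k12
    exact k12
  have hconst : H (t, θ (t, z, v)) - J t v = H (t, θ (t, z, 0)) - J t 0 :=
    isOpen_ball.is_const_of_fderiv_eq_zero (convex_ball (0 : W) ε).isPreconnected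
      (fun v' hv' => (hder v' hv').differentiableAt.differentiableWithinAt)
      (fun v' hv' => (hder v' hv').fderiv) hv (mem_ball_self hε)
  have h0 : θ (t, z, 0) = z := (hb (hbb 0 (mem_ball_self hε))).2
  rw [h0, map_zero, sub_zero] at hconst
  exact sub_eq_iff_eq_add.1 hconst

end Vale.Agent.P281.H303.UD
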