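import Vale.Agent.P281.H303.UD.OrbCmp

/-!
# P281, project T-UD (helper303): the flow on a local datum, the family of tori `u`
-/

open Set Filter Metric MeasureTheory Vale.Agent.P281 Vale.Agent.P281.H713 Vale.Agent.P272.K
open scoped Topology ContDiff Manifold ComplexConjugate NNReal

set_option linter.unusedSectionVars false

noncomputable section

namespace Vale.Agent.P281.H303.UD

open Vale.Agent.P281.H64 (Mark Qf functional_eq)
open Vale.Agent.P281.H64.TK Vale.Agent.P281.H603.K Vale.Agent.P281.H864.K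
open Vale.Agent.P281.H603.TE
open Vale.Agent.P281.H64.TU (TameIn KTame TameBoundStmt NormStmt)
open Vale.Agent.P281.H349.O (Tan lift_unique)

attribute [local instance] ccs

variable {p d : ℕ} {Z Y : Type} [TopologicalSpace Z] [T2Space Z] [ChartedSpace (Cm (p + d)) Z]
  [IsManifold 𝓘(ℂ, Cm (p + d)) ω Z] [TopologicalSpace Y] [T2Space Y] [ChartedSpace (Cm p) Y]
  [IsManifold 𝓘(ℂ, Cm p) ω Y] {f : Z → Y}
  {w : Chart (p + d) Z → Cm (p + d) → Matrix (Fin (p + d)) (Fin (p + d)) ℂ} {m n g b : ℕ}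
  {B : Matrix (Fin n) (Fin n) ℝ}

/-- the action of `𝔟` on a local datum `L`, for `t ∈ T₁`: `J t : Vb → V`, `act` is the flow -/
structure IsFlow (L : DLocE (p := p) (d := d) f w m B g) (T₁ : Set (Cm p))
    (J : Cm p → EuclideanSpace ℂ (Fin b) →L[ℂ] EuclideanSpace ℂ (Fin g))
    (act : EuclideanSpace ℂ (Fin b) × (Cm p × L.E) → L.E) : Prop where
  sub : T₁ ⊆ L.T'
  imm : ImmF (fsub L.𝓕 (core L.Γ m)) T₁ (FL L) (cL L) J
  zero : ∀ t ∈ T₁, ∀ e, act (0, (t, e)) = e
  F : ∀ t ∈ T₁, ∀ v e, FL L t (act (v, (t, e))) = FL L t e + J t v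
  add : ∀ t ∈ T₁, ∀ v v' e, act (v + v', (t, e)) = act (v, (t, act (v', (t, e))))
  cont : ∀ t ∈ T₁, ∀ v e, ContinuousAt act (v, (t, e))

section u

variable (L : DLocE (p := p) (d := d) f w m B g)
  (act : EuclideanSpace ℂ (Fin b) × (Cm p × L.E) → L.E)

open Classical in
/-- a point of the covering over `x` which defines `β` -/
def pt (x : Z) (β : Z → EuclideanSpace ℂ (Fin g)) : L.E :=
  if h : ∃ e, IsPt L x β e then h.choose else Classical.arbitrary L.E

/-- the orbit of `x` -/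
def uL (x : Z) (β : Z → EuclideanSpace ℂ (Fin g)) (v : EuclideanSpace ℂ (Fin b)) : Z :=
  L.q (L.χ (f x)) (act (v, (L.χ (f x), pt L x β)))

variable {L}

theorem pt_spec {x : Z} {β : Z → EuclideanSpace ℂ (Fin g)} (h : L.IsLift x β) :
    IsPt L x β (pt L x β) := by
  have h1 := exists_isPt h
  have h2 : pt L x β = h1.choose := dif_pos h1
  rw [h2]
  exact h1.choose_spec

end u

namespace IsFlow

variable {L : DLocE (p := p) (d := d) f w m B g} {T₁ : Set (Cm p)}
  {J : Cm p → EuclideanSpace ℂ (Fin b) →L[ℂ] EuclideanSpace ℂ (Fin g)}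
  {act : EuclideanSpace ℂ (Fin b) × (Cm p × L.E) → L.E} (hA : IsFlow L T₁ J act)

include hA

/-- the flow along real segments -/
theorem cont_seg {t : Cm p} (ht : t ∈ T₁) (v : EuclideanSpace ℂ (Fin b)) (e : L.E) :
    Continuous fun s : ℝ => act ((s : ℂ) • v, (t, e)) := by
  rw [continuous_iff_continuousAt]
  intro s
  have h4 : ContinuousAt (fun s : ℝ => (((s : ℂ) • v, (t, e)) :
      EuclideanSpace ℂ (Fin b) × (Cm p × L.E))) s := by
    fun_prop
  exact ContinuousAt.comp (g := act) (hA.cont t ht _ _) h4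

theorem pth {t : Cm p} (ht : t ∈ T₁) (v : EuclideanSpace ℂ (Fin b)) (e : L.E) :
    ImmF.Pth (FL L t) (J t v) e (act (v, (t, e))) := by
  refine ⟨fun s => act ((s : ℂ) • v, (t, e)), (hA.cont_seg ht v e).continuousOn, ?_, ?_,
    fun s _ => ?_⟩
  · simp only [Complex.ofReal_zero, zero_smul]
    exact hA.zero t ht e
  · simp only [Complex.ofReal_one, one_smul]
  · show FL L t (act ((s : ℂ) • v, (t, e))) = _
    rw [hA.F t ht, _root_.map_smul]

/-- end points of lifts of segments are given by the flow -/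
theorem eq_of_pth {t : Cm p} (ht : t ∈ T₁) {v : EuclideanSpace ℂ (Fin b)} {e e' : L.E}
    (h : ImmF.Pth (FL L t) (J t v) e e') : act (v, (t, e)) = e' :=
  (hA.pth ht v e).unique (hA.imm.loc_inj ht) h

/-- the periods -/
theorem act_NL {t : Cm p} (ht : t ∈ T₁) {κ : core L.Γ m} (hκ : κ ∈ NL L t)
    {v : EuclideanSpace ℂ (Fin b)} (hv : J t v = cL L t κ) (e : L.E) :
    act (v, (t, e)) = κ • e := by
  refine hA.eq_of_pth ht ?_
  rw [hv]
  exact hκ e

/-- the flow commutes with the group `core` -/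
theorem act_smul {t : Cm p} (ht : t ∈ T₁) (κ : core L.Γ m) (v : EuclideanSpace ℂ (Fin b))
    (e : L.E) : act (v, (t, κ • e)) = κ • act (v, (t, e)) :=
  hA.imm.flow_comm ht (t' := t) (hA.zero t ht) (hA.F t ht) (hA.cont t ht)
    (continuous_const_smul (κ : L.Γ)) (G := ContinuousLinearMap.id ℂ _) (b := cL L t κ)
    (fun e => FL_add L (hA.sub ht) κ e) rfl e

/-- transport of the flow -/
theorem cmp {L' : DLocE (p := p) (d := d) f w m B g} {T₁' : Set (Cm p)}
    {J' : Cm p → EuclideanSpace ℂ (Fin b) →L[ℂ] EuclideanSpace ℂ (Fin g)}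
    {act' : EuclideanSpace ℂ (Fin b) × (Cm p × L'.E) → L'.E} (hA' : IsFlow L' T₁' J' act')
    {D D' : (Fin n → ℝ) ≃L[ℝ] EuclideanSpace ℂ (Fin g)} {y : Y} (hy : L.χ y ∈ T₁)
    (hy' : L'.χ y ∈ T₁') {τ : L.E ≃ₜ L'.E} {ρ : L.Γ ≃* L'.Γ}
    {G : EuclideanSpace ℂ (Fin g) ≃L[ℂ] EuclideanSpace ℂ (Fin g)}
    {c : EuclideanSpace ℂ (Fin g)} (h : IsCmp L L' D D' y τ ρ G c)
    {v v' : EuclideanSpace ℂ (Fin b)} (hv : J' (L'.χ y) v' = G (J (L.χ y) v)) (e : L.E) :
    act' (v', (L'.χ y, τ e)) = τ (act (v, (L.χ y, e))) := by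
  refine hA'.eq_of_pth hy' ?_
  obtain ⟨k, h1, h2, h3, h4⟩ := hA.pth hy v e
  refine ⟨fun s => τ (k s), τ.continuous.comp_continuousOn h1, ?_, ?_, fun s hs => ?_⟩
  · show τ (k 0) = τ e
    rw [h2]
  · show τ (k 1) = _
    rw [h3]
  · show FL L' (L'.χ y) (τ (k s)) = _
    rw [h.F, h4 s hs, h.F, hv, map_add, _root_.map_smul]
    abel

end IsFlow

end Vale.Agent.P281.H303.UD
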