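import Vale.Agent.P281.H303.UD.OrbDefs

/-!
# P281, project T-UD (helper303): comparison of two local data
-/

open Set Filter Metric MeasureTheory Vale.Agent.P281 Vale.Agent.P281.H713 Vale.Agent.P272.K
open scoped Topology ContDiff Manifold ComplexConjugate NNReal

set_option linter.unusedSectionVars false

noncomputable section

namespace Vale.Agent.P281.H303.UD

open Vale.Agent.P281.H64 (Mark Qf functional_eq)
open Vale.Agent.P281.H64.TK Vale.Agent.P281.H603.K Vale.Agent.P281.H864.K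
open Vale.Agent.P281.H603.TE
open Vale.Agent.P281.H64.TU (TameIn KTame TameBoundStmt NormStmt)
open Vale.Agent.P281.H349.O (Tan)

attribute [local instance] ccs

variable {p d : ℕ} {Z Y : Type} [TopologicalSpace Z] [T2Space Z] [ChartedSpace (Cm (p + d)) Z]
  [IsManifold 𝓘(ℂ, Cm (p + d)) ω Z] [TopologicalSpace Y] [T2Space Y] [ChartedSpace (Cm p) Y]
  [IsManifold 𝓘(ℂ, Cm p) ω Y] {f : Z → Y}
  {w : Chart (p + d) Z → Cm (p + d) → Matrix (Fin (p + d)) (Fin (p + d)) ℂ} {m n g : ℕ}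
  {B : Matrix (Fin n) (Fin n) ℝ}

theorem FL_add (L : DLocE (p := p) (d := d) f w m B g) {t : Cm p} (ht : t ∈ L.T')
    (κ : core L.Γ m) (e : L.E) : FL L t (κ • e) = FL L t e + cL L t κ := by
  rw [FL, FL, cL, ← WithLp.toLp_add]
  congr 1
  funext j
  exact ((L.bas t ht).add j).add κ e

section pt

variable (L : DLocE (p := p) (d := d) f w m B g)

/-- `e` is the point of the covering over `x` which defines the lift `β` -/
def IsPt (x : Z) (β : Z → EuclideanSpace ℂ (Fin g)) (e : L.E) : Prop :=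
  f x ∈ L.U ∧ ∃ (γ : L.Γ) (i : Fin L.𝓕.N) (ζ : Z → Cm d), L.IsCo x i ζ ∧
    (∀ᶠ z in 𝓝 x, β z = FL L (L.χ (f z)) (γ • L.𝓕.σ i (L.χ (f z)) (ζ z))) ∧
    e = γ • L.𝓕.σ i (L.χ (f x)) (ζ x)

variable {L}

theorem exists_isPt {x : Z} {β : Z → EuclideanSpace ℂ (Fin g)} (h : L.IsLift x β) :
    ∃ e, IsPt L x β e := by
  obtain ⟨h1, γ, i, ζ, h2, h3⟩ := h
  exact ⟨_, h1, γ, i, ζ, h2, h3, rfl⟩

theorem IsPt.isLift {x : Z} {β : Z → EuclideanSpace ℂ (Fin g)} {e : L.E} (h : IsPt L x β e) :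
    L.IsLift x β := by
  obtain ⟨h1, γ, i, ζ, h2, h3, -⟩ := h
  exact ⟨h1, γ, i, ζ, h2, h3⟩

theorem IsPt.q {x : Z} {β : Z → EuclideanSpace ℂ (Fin g)} {e : L.E} (h : IsPt L x β e) :
    L.q (L.χ (f x)) e = x := by
  obtain ⟨h1, γ, i, ζ, h2, h3, rfl⟩ := h
  rw [L.q_smul h1]
  exact h2.2.2.self_of_nhds

theorem IsPt.F {x : Z} {β : Z → EuclideanSpace ℂ (Fin g)} {e : L.E} (h : IsPt L x β e) :
    FL L (L.χ (f x)) e = β x := by
  obtain ⟨h1, γ, i, ζ, h2, h3, rfl⟩ := h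
  exact h3.self_of_nhds.symm

/-- the points near `x` -/
theorem isPt_near (hf : ContMDiff 𝓘(ℂ, Cm (p + d)) 𝓘(ℂ, Cm p) ω f) {x : Z}
    {β : Z → EuclideanSpace ℂ (Fin g)} {γ : L.Γ} {i : Fin L.𝓕.N} {ζ : Z → Cm d}
    (hx : f x ∈ L.U) (h2 : L.IsCo x i ζ)
    (h3 : ∀ᶠ z in 𝓝 x, β z = FL L (L.χ (f z)) (γ • L.𝓕.σ i (L.χ (f z)) (ζ z))) :
    ∀ᶠ z in 𝓝 x, IsPt L z β (γ • L.𝓕.σ i (L.χ (f z)) (ζ z)) := by
  filter_upwards [L.eventually_mem hf hx, DLocE.IsCo.near L h2, eventually_eventually_nhds.2 h3]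
    with z a b c
  exact ⟨a, γ, i, ζ, b, c, rfl⟩

/-- every point over `x` defines a lift -/
theorem isPt_of {x : Z} (hx : f x ∈ L.U) (e : L.E) (he : L.q (L.χ (f x)) e = x) :
    ∃ β, IsPt L x β e := by
  obtain ⟨γ, i, z, hz, hγ⟩ := L.𝓕.cover _ (L.hT' hx.2) e
  have h1 : L.q (L.χ (f x)) (L.𝓕.σ i (L.χ (f x)) z) = x := by
    rw [← L.q_smul hx γ, hγ, he]
  obtain ⟨ζ, h2, h3⟩ := L.exists_co hx (Sh.mem3 hz) h1
  refine ⟨fun z => FL L (L.χ (f z)) (γ • L.𝓕.σ i (L.χ (f z)) (ζ z)), hx, γ, i, ζ, h2,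
    Eventually.of_forall fun _ => rfl, ?_⟩
  rw [h3, hγ]

end pt

/-! ### `full` -/

section full

variable {L : DLocE (p := p) (d := d) f w m B g}

/-- the fibre is not contained in a hyperplane -/
theorem full {x : Z}
    {β : Z → EuclideanSpace ℂ (Fin g)} (hβ : L.IsLift x β) (l : EuclideanSpace ℂ (Fin g) →L[ℂ] ℂ)
    (hl : ∀ᶠ z in 𝓝 x, f z = f x → l (β z) = l (β x)) : l = 0 := by
  set y := f x with hydef
  have hy : y ∈ L.U := hβ.1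
  have ht := L.hT' hy.2
  have hbas := L.bas _ hy.2
  obtain ⟨i₀, ζ, hζ⟩ := L.chart hy
  set z := ζ x with hz
  have hz3 : z ∈ ball (0 : Cm d) 3 := hζ.2.1
  have hxz : L.q (L.χ y) (L.𝓕.σ i₀ (L.χ y) z) = x := hζ.2.2.self_of_nhds
  have hβ' : L.IsLift (L.q (L.χ y) (L.𝓕.σ i₀ (L.χ y) z)) β := by rwa [hxz]
  obtain ⟨γ₁, hγ₁⟩ := DLocE.IsLift.slice hy hz3 hβ'
  set s' : Fin g → ℂ := fun j => l (WithLp.toLp 2 (Pi.single j 1)) with hs'
  have hadd := Add.sum hbas.add s'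
  have hfc : ∀ u, f (L.q (L.χ y) (L.𝓕.σ i₀ (L.χ y) u)) = y := fun u => by
    rw [L.model.fib _ ht, L.left_inv hy]
  have hQc : Tendsto (fun v => L.q (L.χ y) (L.𝓕.σ i₀ (L.χ y) v)) (𝓝 z) (𝓝 x) := by
    have h1 : ContinuousAt (fun v => L.q (L.χ y) (L.𝓕.σ i₀ (L.χ y) v)) z :=
      (contMDiffAt_slice (L.model.hol i₀ _ ht z hz3)).continuousAt
    have h2 := h1.tendsto
    rwa [hxz] at h2
  have hev' : ∀ᶠ e in 𝓝 (γ₁ • L.𝓕.σ i₀ (L.χ y) z), ∑ j, s' j * L.F (L.χ y) e j =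
      ∑ j, s' j * L.F (L.χ y) (γ₁ • L.𝓕.σ i₀ (L.χ y) z) j := by
    have h0 := Sh.map_nhds_smul (L.sh hy) γ₁ i₀ hz3
    have h0' : Filter.map (fun v => γ₁ • L.𝓕.σ i₀ (L.χ y) v) (𝓝 z) =
      𝓝 (γ₁ • L.𝓕.σ i₀ (L.χ y) z) := h0
    rw [← h0', eventually_map]
    filter_upwards [hγ₁, hQc.eventually hl] with u h1 h2
    have h4 := h2 (hfc u)
    have h5 : β x = WithLp.toLp 2 (L.F (L.χ y) (γ₁ • L.𝓕.σ i₀ (L.χ y) z)) := by
      rw [← hγ₁.self_of_nhds, hxz]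
    rw [h1, h5] at h4
    have h6 := functional_eq l (L.F (L.χ y) (γ₁ • L.𝓕.σ i₀ (L.χ y) u))
    have h7 := functional_eq l (L.F (L.χ y) (γ₁ • L.𝓕.σ i₀ (L.χ y) z))
    rw [← h6, ← h7]
    exact h4
  have hconst' : ∀ e, ∑ j, s' j * L.F (L.χ y) e j =
      ∑ j, s' j * L.F (L.χ y) (γ₁ • L.𝓕.σ i₀ (L.χ y) z) j := fun e =>
    const_of_eventually hadd hev' e
  have hper := hadd.per_zero (fun e e' => by rw [hconst' e, hconst' e'])
  have hs0 := hbas.indep s' hper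
  ext v
  have h8 := functional_eq l ((WithLp.equiv 2 _) v)
  have h9 : (WithLp.toLp 2 ((WithLp.equiv 2 _) v) : EuclideanSpace ℂ (Fin g)) = v := rfl
  rw [h9] at h8
  rw [h8]
  have h10 : ∀ j, l (WithLp.toLp 2 (Pi.single j 1)) = 0 := fun j => congrFun hs0 j
  rw [zero_apply]
  exact Finset.sum_eq_zero fun j _ => by rw [h10, zero_mul]

end full

/-! ### Comparison -/

/-- the comparison of the fibres over `y` -/
structure IsCmp (L L' : DLocE (p := p) (d := d) f w m B g)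
    (D D' : (Fin n → ℝ) ≃L[ℝ] EuclideanSpace ℂ (Fin g)) (y : Y) (τ : L.E ≃ₜ L'.E)
    (ρ : L.Γ ≃* L'.Γ) (G : EuclideanSpace ℂ (Fin g) ≃L[ℂ] EuclideanSpace ℂ (Fin g))
    (b : EuclideanSpace ℂ (Fin g)) : Prop where
  eqv : ∀ γ e, τ (γ • e) = ρ γ • τ e
  mem : ∀ γ, ρ γ ∈ core L'.Γ m ↔ γ ∈ core L.Γ m
  q : ∀ e, L'.q (L'.χ y) (τ e) = L.q (L.χ y) e
  F : ∀ e, FL L' (L'.χ y) (τ e) = G (FL L (L.χ y) e) + b
  per : IsPeriodChange (Qf B) (L.π D y) (L'.π D' y) G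

theorem exists_cmp (I : Inputs) (hd : 0 < d) (hn : n = 2 * g)
    (hf : ContMDiff 𝓘(ℂ, Cm (p + d)) 𝓘(ℂ, Cm p) ω f) (hw : IsKahler w)
    (L L' : DLocE (p := p) (d := d) f w m B g)
    (D D' : (Fin n → ℝ) ≃L[ℝ] EuclideanSpace ℂ (Fin g)) {y : Y} (hy : y ∈ L.U) (hy' : y ∈ L'.U)
    {e : L.E} {e' : L'.E} (he : L.q (L.χ y) e = L'.q (L'.χ y) e') :
    ∃ (τ : L.E ≃ₜ L'.E) (ρ : L.Γ ≃* L'.Γ)
      (G : EuclideanSpace ℂ (Fin g) ≃L[ℂ] EuclideanSpace ℂ (Fin g)) (b : EuclideanSpace ℂ (Fin g)),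
      IsCmp L L' D D' y τ ρ G b ∧ τ e = e' := by
  have ht := L.hT' hy.2
  have ht' := L'.hT' hy'.2
  obtain ⟨τ, ρ, hq, hc, -⟩ := compareE I hd hf hw L.model L'.model L.pull L'.pull ht ht'
    (by rw [L.left_inv hy, L'.left_inv hy']) m
  have k4 : L'.q (L'.χ y) (τ e) = L'.q (L'.χ y) e' := by
    rw [hq]
    exact he
  obtain ⟨δ, hδ⟩ := (L'.model.eq _ ht' _ _).1 k4
  have hc' := hc.smul δ
  have hcK := hc'.sub (K := core L.Γ m) (K' := core L'.Γ m)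
    fun _ => map_core (ρ.trans (MulAut.conj δ)) m
  obtain ⟨hB, -⟩ := L.F2_at I.f2 hd hn hy.2
  obtain ⟨G, b, hG, hGF⟩ := hcK.change I hd (kah_fW _ L.kfam ht) (kah_fW _ L'.kfam ht')
    (L.form _ ht) (L'.form _ ht') hB (L.bas _ hy.2) (L'.bas _ hy'.2)
    (DLocE.π_spec I.f2 hd hn D hy) (DLocE.π_spec I.f2 hd hn D' hy')
  refine ⟨τ.trans (Homeomorph.smul δ), ρ.trans (MulAut.conj δ), G, b,
    ⟨hc'.eqv, fun _ => map_core (ρ.trans (MulAut.conj δ)) m, fun e => ?_, hGF, hG⟩, hδ⟩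
  have e3 : L'.q (L'.χ y) (δ • τ e) = L'.q (L'.χ y) (τ e) := L'.q_smul hy' δ _
  exact e3.trans (hq e)

namespace IsCmp

variable {L L' : DLocE (p := p) (d := d) f w m B g}
  {D D' : (Fin n → ℝ) ≃L[ℝ] EuclideanSpace ℂ (Fin g)} {y : Y} {τ : L.E ≃ₜ L'.E}
  {ρ : L.Γ ≃* L'.Γ} {G : EuclideanSpace ℂ (Fin g) ≃L[ℂ] EuclideanSpace ℂ (Fin g)}
  {b : EuclideanSpace ℂ (Fin g)}

theorem F_symm (h : IsCmp L L' D D' y τ ρ G b) (e : L'.E) :
    FL L (L.χ y) (τ.symm e) = G.symm (FL L' (L'.χ y) e) - G.symm b := by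
  have h1 := h.F (τ.symm e)
  rw [τ.apply_symm_apply] at h1
  rw [h1, map_add, G.symm_apply_apply, add_sub_cancel_right]

/-- the everywhere tangent vectors -/
theorem tan (h : IsCmp L L' D D' y τ ρ G b) (v : EuclideanSpace ℂ (Fin g)) :
    (∀ e, Tan (FL L (L.χ y)) e v) ↔ ∀ e, Tan (FL L' (L'.χ y)) e (G v) := by
  constructor
  · intro H e
    obtain ⟨γ, h1, h2, h3⟩ := H (τ.symm e)
    refine ⟨fun s => τ (γ s), τ.continuous.continuousAt.comp h1, ?_, ?_⟩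
    · show τ (γ 0) = e
      rw [h2, τ.apply_symm_apply]
    · have h4 : (fun s => FL L' (L'.χ y) (τ (γ s))) = fun s => G (FL L (L.χ y) (γ s)) + b :=
        funext fun s => h.F _
      rw [h4]
      exact ((G : EuclideanSpace ℂ (Fin g) →L[ℂ] EuclideanSpace ℂ (Fin g)).hasFDerivAt.comp_hasDerivAt
        (0 : ℂ) h3).add_const b
  · intro H e
    obtain ⟨γ, h1, h2, h3⟩ := H (τ e)
    refine ⟨fun s => τ.symm (γ s), τ.symm.continuous.continuousAt.comp h1, ?_, ?_⟩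
    · show τ.symm (γ 0) = e
      rw [h2, τ.symm_apply_apply]
    · have h4 : (fun s => FL L (L.χ y) (τ.symm (γ s))) =
          fun s => G.symm (FL L' (L'.χ y) (γ s)) - G.symm b := funext fun s => h.F_symm _
      rw [h4]
      have h5 := ((G.symm : EuclideanSpace ℂ (Fin g) →L[ℂ]
        EuclideanSpace ℂ (Fin g)).hasFDerivAt.comp_hasDerivAt (0 : ℂ) h3).sub_const (G.symm b)
      have h6 : (G.symm : EuclideanSpace ℂ (Fin g) →L[ℂ] EuclideanSpace ℂ (Fin g)) (G v) = v :=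
        G.symm_apply_apply v
      rw [h6] at h5
      exact h5

theorem symm_smul (h : IsCmp L L' D D' y τ ρ G b) (γ : L'.Γ) (e : L'.E) :
    τ.symm (γ • e) = ρ.symm γ • τ.symm e := by
  apply τ.injective
  rw [h.eqv, τ.apply_symm_apply, ρ.apply_symm_apply, τ.apply_symm_apply]

/-- the periods -/
theorem c_eq (h : IsCmp L L' D D' y τ ρ G b) (hy : y ∈ L.U) (hy' : y ∈ L'.U) {κ : core L.Γ m}
    {κ' : core L'.Γ m} (hκ : (κ' : L'.Γ) = ρ κ) : cL L' (L'.χ y) κ' = G (cL L (L.χ y) κ) := by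
  obtain ⟨e⟩ : Nonempty L.E := inferInstance
  have h1 : τ (κ • e) = κ' • τ e := by
    show τ ((κ : L.Γ) • e) = (κ' : L'.Γ) • τ e
    rw [h.eqv, hκ]
  have h2 := h.F (κ • e)
  rw [h1, FL_add L' hy'.2, FL_add L hy.2, h.F, map_add] at h2
  have h3 : (G (FL L (L.χ y) e) + b) + cL L' (L'.χ y) κ' =
      (G (FL L (L.χ y) e) + b) + G (cL L (L.χ y) κ) := by
    rw [h2]
    abel
  exact add_left_cancel h3

theorem NL_of (h : IsCmp L L' D D' y τ ρ G b) (hy : y ∈ L.U) (hy' : y ∈ L'.U) {κ : core L.Γ m}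
    {κ' : core L'.Γ m} (hκ : (κ' : L'.Γ) = ρ κ) (hN : κ ∈ NL L (L.χ y)) :
    κ' ∈ NL L' (L'.χ y) := by
  intro e
  obtain ⟨c, h1, h2, h3, h4⟩ := hN (τ.symm e)
  refine ⟨fun s => τ (c s), τ.continuous.comp_continuousOn h1, ?_, ?_, fun s hs => ?_⟩
  · show τ (c 0) = e
    rw [h2, τ.apply_symm_apply]
  · show τ (c 1) = (κ' : L'.Γ) • e
    rw [h3]
    show τ ((κ : L.Γ) • τ.symm e) = _
    rw [h.eqv, τ.apply_symm_apply, hκ]
  · show FL L' (L'.χ y) (τ (c s)) = _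
    have h5 := h.F (τ.symm e)
    rw [τ.apply_symm_apply] at h5
    rw [h.F, h4 s hs, h.c_eq hy hy' hκ, h5, map_add, _root_.map_smul]
    abel

theorem NL_of' (h : IsCmp L L' D D' y τ ρ G b) (hy : y ∈ L.U) (hy' : y ∈ L'.U) {κ : core L.Γ m}
    {κ' : core L'.Γ m} (hκ : (κ' : L'.Γ) = ρ κ) (hN : κ' ∈ NL L' (L'.χ y)) :
    κ ∈ NL L (L.χ y) := by
  intro e
  obtain ⟨c, h1, h2, h3, h4⟩ := hN (τ e)
  refine ⟨fun s => τ.symm (c s), τ.symm.continuous.comp_continuousOn h1, ?_, ?_, fun s hs => ?_⟩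
  · show τ.symm (c 0) = e
    rw [h2, τ.symm_apply_apply]
  · show τ.symm (c 1) = (κ : L.Γ) • e
    rw [h3]
    show τ.symm ((κ' : L'.Γ) • τ e) = _
    rw [h.symm_smul, τ.symm_apply_apply, hκ, ρ.symm_apply_apply]
  · show FL L (L.χ y) (τ.symm (c s)) = _
    have h5 := h.F e
    rw [h.F_symm, h4 s hs, h.c_eq hy hy' hκ, h5, map_add, map_add, _root_.map_smul,
      G.symm_apply_apply, G.symm_apply_apply]
    abel

/-- `G` maps the periods of `NL L` onto those of `NL L'` -/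
theorem NL_map (h : IsCmp L L' D D' y τ ρ G b) (hy : y ∈ L.U) (hy' : y ∈ L'.U) :
    (∀ κ ∈ NL L (L.χ y), ∃ κ' ∈ NL L' (L'.χ y), G (cL L (L.χ y) κ) = cL L' (L'.χ y) κ') ∧
    ∀ κ' ∈ NL L' (L'.χ y), ∃ κ ∈ NL L (L.χ y), G (cL L (L.χ y) κ) = cL L' (L'.χ y) κ' := by
  constructor
  · intro κ hκ
    have h1 : ρ κ ∈ core L'.Γ m := (h.mem κ).2 κ.2
    exact ⟨⟨ρ κ, h1⟩, h.NL_of hy hy' (κ' := ⟨ρ κ, h1⟩) rfl hκ,
      (h.c_eq hy hy' (κ' := ⟨ρ κ, h1⟩) rfl).symm⟩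
  · intro κ' hκ'
    have h1 : ρ.symm κ' ∈ core L.Γ m := by
      rw [← h.mem, ρ.apply_symm_apply]
      exact κ'.2
    have h2 : (κ' : L'.Γ) = ρ ((⟨ρ.symm κ', h1⟩ : core L.Γ m) : L.Γ) :=
      (ρ.apply_symm_apply _).symm
    exact ⟨⟨ρ.symm κ', h1⟩, h.NL_of' hy hy' h2 hκ', (h.c_eq hy hy' h2).symm⟩

/-- the points near `x` on the fibre -/
theorem near (hf : ContMDiff 𝓘(ℂ, Cm (p + d)) 𝓘(ℂ, Cm p) ω f) {x : Z}
    (h : IsCmp L L' D D' (f x) τ ρ G b) {β β' : Z → EuclideanSpace ℂ (Fin g)} {e : L.E}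
    (hβ : IsPt L x β e) (hβ' : IsPt L' x β' (τ e)) :
    ∀ᶠ z in 𝓝 x, f z = f x → ∃ e₁, IsPt L z β e₁ ∧ IsPt L' z β' (τ e₁) := by
  obtain ⟨hx, γ, i, ζ, h1, h4, he⟩ := hβ
  obtain ⟨hx', γ', i', ζ', h1', h4', he'⟩ := hβ'
  have hτx : τ (γ • L.𝓕.σ i (L.χ (f x)) (ζ x)) = γ' • L'.𝓕.σ i' (L'.χ (f x)) (ζ' x) := by
    rw [← he, he']
  set y := f x with hydef
  set t := L.χ y with htd
  set t' := L'.χ y with htd'
  have hcont : ContinuousAt (fun z => τ (γ • L.𝓕.σ i t (ζ z))) x := by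
    refine τ.continuous.continuousAt.comp ?_
    refine (continuous_const_smul γ).continuousAt.comp ?_
    exact ContinuousAt.comp (g := L.𝓕.σ i t) (f := ζ) (Sh.contAt (L.sh hx) i h1.2.1)
      h1.1.continuousAt
  have hopen : (fun u => γ' • L'.𝓕.σ i' t' u) '' ball (0 : Cm d) 3 ∈
      𝓝 (τ (γ • L.𝓕.σ i t (ζ x))) := by
    rw [hτx]
    exact (Sh.isOpen_image_smul (L'.sh hx') γ' i' isOpen_ball (Subset.refl _)).mem_nhds
      ⟨_, h1'.2.1, rfl⟩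
  have e1 := hcont.eventually hopen
  have e2 : ∀ᶠ z in 𝓝 x, ζ' z ∈ ball (0 : Cm d) 3 :=
    h1'.1.continuousAt.eventually (isOpen_ball.mem_nhds h1'.2.1)
  filter_upwards [h1.2.2, h1'.2.2, e1, e2, isPt_near hf hx h1 h4, isPt_near hf hx' h1' h4']
    with z a3 a3' a5 a6 b1 b2 hz
  rw [hz] at a3 a3' b1 b2
  obtain ⟨u, hu, hue⟩ := a5
  have hue' : γ' • L'.𝓕.σ i' t' u = τ (γ • L.𝓕.σ i t (ζ z)) := hue
  have a7 : L'.q t' (γ' • L'.𝓕.σ i' t' u) = L'.q t' (L'.𝓕.σ i' t' (ζ' z)) := by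
    rw [hue', h.q, L.q_smul hx]
    exact a3.trans a3'.symm
  have a8 : u = ζ' z := DLocE.eq_of_q hx' (γ := γ') (i := i') hu a6 a7
  refine ⟨_, b1, ?_⟩
  rw [← htd, ← hue', a8]
  exact b2

end IsCmp

end Vale.Agent.P281.H303.UD
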