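import Vale.Agent.P281.H603.TE.AlbE
import Vale.Agent.P281.H303.UD.Spec
import Vale.Agent.P281.H303.UD.Flow
import Vale.Agent.P281.H152.R.Bt
import Vale.Agent.P281.H349.O.Flat

/-!
# P281, project T-UD (helper303): the action of `𝔟` on the local data, letters
-/

open Set Filter Metric MeasureTheory Vale.Agent.P281 Vale.Agent.P281.H713 Vale.Agent.P272.K
open scoped Topology ContDiff Manifold ComplexConjugate NNReal

set_option linter.unusedSectionVars false

noncomputable section

namespace Vale.Agent.P281.H303.UD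

open Vale.Agent.P281.H64 (Mark Qf)
open Vale.Agent.P281.H64.TK Vale.Agent.P281.H603.K Vale.Agent.P281.H864.K
open Vale.Agent.P281.H603.TE
open Vale.Agent.P281.H64.TU (TameIn KTame TameBoundStmt NormStmt)
open Vale.Agent.P281.H349.O (Tan)

attribute [local instance] ccs

variable {p d : ℕ} {Z Y : Type} [TopologicalSpace Z] [T2Space Z] [ChartedSpace (Cm (p + d)) Z]
  [IsManifold 𝓘(ℂ, Cm (p + d)) ω Z] [TopologicalSpace Y] [T2Space Y] [ChartedSpace (Cm p) Y]
  [IsManifold 𝓘(ℂ, Cm p) ω Y] {f : Z → Y}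
  {w : Chart (p + d) Z → Cm (p + d) → Matrix (Fin (p + d)) (Fin (p + d)) ℂ} {m n g : ℕ}
  {B : Matrix (Fin n) (Fin n) ℝ}

section letters

variable (L : DLocE (p := p) (d := d) f w m B g)

/-- the multi-valued Albanese map of the covering of the fibre number `t` -/
def FL (t : Cm p) (e : L.E) : EuclideanSpace ℂ (Fin g) := WithLp.toLp 2 (L.F t e)

/-- its periods -/
def cL (t : Cm p) (κ : core L.Γ m) : EuclideanSpace ℂ (Fin g) := WithLp.toLp 2 (L.c t κ)

/-- `F` in the sheets of the coverings -/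
def HL (i : Fin (fsub L.𝓕 (core L.Γ m)).N) (q : Cm p × Cm d) : EuclideanSpace ℂ (Fin g) :=
  FL L q.1 ((fsub L.𝓕 (core L.Γ m)).σ i q.1 q.2)

/-- the coverings are immersed -/
def ImL : Prop := ∀ i, ∀ t ∈ L.T', ∀ z ∈ ball (0 : Cm d) 3, ∀ ξ : Cm d,
  fderiv ℂ (HL L i) (t, z) (0, ξ) = 0 → ξ = 0

/-- the elements of the group which are translations by everywhere tangent vectors -/
def NL (t : Cm p) : Set (core L.Γ m) :=
  {κ | ∀ e, ImmF.Pth (FL L t) (cL L t κ) e (κ • e)}

/-- smaller `T'` -/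
def shr (T₁ : Set (Cm p)) (h : T₁ ⊆ L.T') (ho : IsOpen T₁) : DLocE (p := p) (d := d) f w m B g where
  toLocE := L.toLocE
  T' := T₁
  hT' := h.trans L.hT'
  isOpen' := ho
  F := L.F
  c := L.c
  bas t ht := L.bas t (h ht)
  holF i t ht := L.holF i t (h ht)
  holc γ j t ht := L.holc γ j t (h ht)

end letters

end Vale.Agent.P281.H303.UD
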