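import Vale.Agent.P281.H303.UD.OrbV
import Vale.Agent.P281.H152.R.Fam
import Vale.Agent.P281.H83.ImmOpen

/-!
# P281, project T-UD (helper303): the local data are immersed; existence of the flow
-/

open Set Filter Metric MeasureTheory Vale.Agent.P281 Vale.Agent.P281.H713 Vale.Agent.P272.K
open scoped Topology ContDiff Manifold ComplexConjugate NNReal

set_option linter.unusedSectionVars false

noncomputable section

namespace Vale.Agent.P281.H303.UD

open Vale.Agent.P281.H64 (Mark Qf functional_eq)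
open Vale.Agent.P281.H64.TK Vale.Agent.P281.H603.K Vale.Agent.P281.H864.K
open Vale.Agent.P281.H603.TE
open Vale.Agent.P281.H64.TU (TameIn KTame TameBoundStmt NormStmt)
open Vale.Agent.P281.H349.O (Tan lift_unique)
open Vale.Agent.P281.H83 (IsImmS immS_iso isoHol_of)
open Vale.Agent.P281.H152.R (Imm0 HF Bt)

attribute [local instance] ccs

variable {p d : ℕ} {Z Y : Type} [TopologicalSpace Z] [T2Space Z] [ChartedSpace (Cm (p + d)) Z]
  [IsManifold 𝓘(ℂ, Cm (p + d)) ω Z] [TopologicalSpace Y] [T2Space Y] [ChartedSpace (Cm p) Y]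
  [IsManifold 𝓘(ℂ, Cm p) ω Y] {f : Z → Y}
  {w : Chart (p + d) Z → Cm (p + d) → Matrix (Fin (p + d)) (Fin (p + d)) ℂ} {m n g b : ℕ}
  {B : Matrix (Fin n) (Fin n) ℝ}

theorem HL_hol (L : DLocE (p := p) (d := d) f w m B g) (i : Fin (fsub L.𝓕 (core L.Γ m)).N)
    {t : Cm p} (ht : t ∈ L.T') {z : Cm d} (hz : z ∈ ball (0 : Cm d) 3) :
    AnalyticAt ℂ (HL L i) (t, z) := by
  have h6 : ContDiffAt ℂ ω (fun q : Cm p × Cm d =>
      L.F q.1 ((fsub L.𝓕 (core L.Γ m)).σ i q.1 q.2)) (t, z) := by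
    rw [contDiffAt_pi]
    intro j
    exact (L.holF i t ht z hz j).contDiffAt
  exact ((PiLp.continuousLinearEquiv 2 ℂ (fun _ : Fin g => ℂ)).symm.contDiff.contDiffAt.comp _
    h6).analyticAt

/-- **the local data are immersed** -/
theorem imL (I : Inputs) (hd : 0 < d) (hf : ContMDiff 𝓘(ℂ, Cm (p + d)) 𝓘(ℂ, Cm p) ω f)
    (hw : IsKahler w) (L : DLocE (p := p) (d := d) f w m B g)
    (h : ∀ t ∈ L.T', IsImmE (p + d) p d m f (L.χ.symm t)) : ImL L := by
  intro i t ht z hz ξ hξ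
  by_contra hne
  obtain ⟨E', Γ', _, _, _, _, _, _, 𝓕', q', χ', t', ht', hfin, hM', hy', hT⟩ := h t ht
  obtain ⟨W', hPull', hKF'⟩ := I.w p d Z Y f w E' Γ' 𝓕' q' χ' hf hM' hw
  obtain ⟨τ, ρ, -, -, hc⟩ := compareE I hd hf hw L.model hM' L.pull hPull' (L.hT' ht) ht'
    hy'.symm m
  have h4 : IsImmS (sub (L.𝓕.at t (L.hT' ht)) (core L.Γ m)) :=
    immS_iso (ρ := res ρ fun _ => map_core ρ m) hc.eqv (isoHol_of hc) fun j v hv =>
      hT j v (ball13 (by simpa using hv))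
  have hC2 := (I.c2 d L.E (core L.Γ m) (sub (L.𝓕.at t (L.hT' ht)) (core L.Γ m)) _ hd
    (kah_fW _ L.kfam (L.hT' ht))).2
  obtain ⟨u, b, hu, hu'⟩ := h4 i z hz ξ hne
  obtain ⟨s, b', hs⟩ := exists_lin (L.bas t ht) hC2 hu
  apply hu'
  have h1 : (fun z => u ((sub (L.𝓕.at t (L.hT' ht)) (core L.Γ m)).σ i z)) =
      fun z => fnl s (HL L i (t, z)) + b' := by
    funext z
    rw [hs, HL, FL, fnl_apply]
    rfl
  have h2 : HasFDerivAt (fun z : Cm d => HL L i (t, z))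
      ((fderiv ℂ (HL L i) (t, z)).comp (ContinuousLinearMap.inr ℂ (Cm p) (Cm d))) z :=
    (HL_hol L i ht hz).differentiableAt.hasFDerivAt.comp z (hasFDerivAt_prodMk_right t z)
  have h3 : HasFDerivAt (fun z : Cm d => fnl s (HL L i (t, z)) + b')
      ((fnl s).comp ((fderiv ℂ (HL L i) (t, z)).comp
        (ContinuousLinearMap.inr ℂ (Cm p) (Cm d)))) z :=
    ((fnl s).hasFDerivAt.comp z h2).add_const b'
  rw [h1, h3.fderiv]
  show fnl s (fderiv ℂ (HL L i) (t, z) (0, ξ)) = 0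
  rw [hξ, map_zero]

/-- in the letters of helper152 -/
theorem imm0 {L : DLocE (p := p) (d := d) f w m B g} (hI : ImL L) :
    Imm0 (fsub L.𝓕 (core L.Γ m)) L.T' (FL L) (cL L) where
  sub := L.hT'
  isOpen := L.isOpen'
  add t ht κ e := FL_add L ht κ e
  hol i t ht z hz := HL_hol L i ht hz
  imm i t ht z hz ξ h := hI i t ht z hz ξ h

theorem mem_Bt_iff {L : DLocE (p := p) (d := d) f w m B g} (hI : ImL L) {t : Cm p}
    (ht : t ∈ L.T') (v : EuclideanSpace ℂ (Fin g)) :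
    v ∈ Bt (HL L) t ↔ ∀ e, Tan (FL L t) e v :=
  ((imm0 hI).mem_bs ht).symm

/-- **the flow** -/
theorem exists_isFlow {L : DLocE (p := p) (d := d) f w m B g} (hI : ImL L) {T₁ : Set (Cm p)}
    (hT₁ : T₁ ⊆ L.T') (ho : IsOpen T₁)
    {J : Cm p → EuclideanSpace ℂ (Fin b) →L[ℂ] EuclideanSpace ℂ (Fin g)}
    (hJ : ∀ t ∈ T₁, AnalyticAt ℂ J t) (htan : ∀ t ∈ T₁, ∀ v e, Tan (FL L t) e (J t v)) :
    ∃ act, IsFlow L T₁ J act := by
  have h1 : ImmF (fsub L.𝓕 (core L.Γ m)) T₁ (FL L) (cL L) J :=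
    ((imm0 hI).mono hT₁ ho).immF hJ fun t ht v =>
      (mem_Bt_iff hI (hT₁ ht) _).2 fun e => htan t ht v e
  obtain ⟨act, a1, a2, a3, a4⟩ := h1.exists_flow
  exact ⟨act, hT₁, h1, a1, a2, a3, a4⟩

end Vale.Agent.P281.H303.UD
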