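import Vale.Agent.P281.H303.UD.OrbU

/-!
# P281, project T-UD (helper303): the family of tori `u`, fields of `IsOrbM`, part 2
-/

open Set Filter Metric MeasureTheory Vale.Agent.P281 Vale.Agent.P281.H713 Vale.Agent.P272.K
open scoped Topology ContDiff Manifold ComplexConjugate NNReal

set_option linter.unusedSectionVars false

noncomputable section

namespace Vale.Agent.P281.H303.UD

open Vale.Agent.P281.H64 (Mark Qf functional_eq)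
open Vale.Agent.P281.H64.TK Vale.Agent.P281.H603.K Vale.Agent.P281.H864.K
open Vale.Agent.P281.H603.TE
open Vale.Agent.P281.H64.TU (TameIn KTame TameBoundStmt NormStmt)
open Vale.Agent.P281.H349.O (Tan lift_unique)

attribute [local instance] ccs

variable {p d : ℕ} {Z Y : Type} [TopologicalSpace Z] [T2Space Z] [ChartedSpace (Cm (p + d)) Z]
  [IsManifold 𝓘(ℂ, Cm (p + d)) ω Z] [TopologicalSpace Y] [T2Space Y] [ChartedSpace (Cm p) Y]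
  [IsManifold 𝓘(ℂ, Cm p) ω Y] {f : Z → Y}
  {w : Chart (p + d) Z → Cm (p + d) → Matrix (Fin (p + d)) (Fin (p + d)) ℂ} {m n g b : ℕ}
  {B : Matrix (Fin n) (Fin n) ℝ}

namespace IsFlow

variable {L : DLocE (p := p) (d := d) f w m B g} {T₁ : Set (Cm p)}
  {J : Cm p → EuclideanSpace ℂ (Fin b) →L[ℂ] EuclideanSpace ℂ (Fin g)}
  {act : EuclideanSpace ℂ (Fin b) × (Cm p × L.E) → L.E} (hA : IsFlow L T₁ J act)

include hA

/-- the flow is holomorphic, in the translates of the sheets -/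
theorem holΓ {t₀ : Cm p} (ht₀ : t₀ ∈ T₁) {v₀ : EuclideanSpace ℂ (Fin b)} {γ γ' : L.Γ}
    {i i' : Fin L.𝓕.N} {z₀ z₁ : Cm d} (hz₀ : z₀ ∈ ball (0 : Cm d) 3)
    (hz₁ : z₁ ∈ ball (0 : Cm d) 3)
    (hact : act (v₀, (t₀, γ • L.𝓕.σ i t₀ z₀)) = γ' • L.𝓕.σ i' t₀ z₁) :
    ∃ θ : EuclideanSpace ℂ (Fin b) × (Cm p × Cm d) → Cm d, AnalyticAt ℂ θ (v₀, (t₀, z₀)) ∧
      θ (v₀, (t₀, z₀)) = z₁ ∧
      ∀ᶠ q in 𝓝 (v₀, (t₀, z₀)), act (q.1, (q.2.1, γ • L.𝓕.σ i q.2.1 q.2.2)) =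
        γ' • L.𝓕.σ i' q.2.1 (θ q) := by
  obtain ⟨κ, j, h1⟩ := sheet L γ i
  obtain ⟨κ', j', h2⟩ := sheet L γ' i'
  rw [h1, h2] at hact
  obtain ⟨θ, h3, h4, h5⟩ := hA.imm.flow_hol (act := act) hA.F hA.cont ht₀ hz₀ hz₁ hact
    (fun κ t ht => cL_hol L κ (hA.sub ht))
  refine ⟨θ, h3, h4, ?_⟩
  filter_upwards [h5] with q hq
  rw [h1, h2]
  exact hq

/-- the local form of the flow near a point of `Z` -/
theorem loc (hf : ContMDiff 𝓘(ℂ, Cm (p + d)) 𝓘(ℂ, Cm p) ω f) {x : Z}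
    {β : Z → EuclideanSpace ℂ (Fin g)} {e : L.E} (h : IsPt L x β e) (hx : L.χ (f x) ∈ T₁)
    {v₀ : EuclideanSpace ℂ (Fin b)} {γ' : L.Γ} {i' : Fin L.𝓕.N} {z₁ : Cm d}
    (hz₁ : z₁ ∈ ball (0 : Cm d) 3)
    (he : act (v₀, (L.χ (f x), e)) = γ' • L.𝓕.σ i' (L.χ (f x)) z₁) :
    ∃ Θ : Z × EuclideanSpace ℂ (Fin b) → Cm d,
      ContMDiffAt (𝓘(ℂ, Cm (p + d)).prod 𝓘(ℂ, EuclideanSpace ℂ (Fin b))) 𝓘(ℂ, Cm d) ω Θ (x, v₀) ∧
      Θ (x, v₀) = z₁ ∧ ∀ᶠ z in 𝓝 (x, v₀), L.χ (f z.1) ∈ T₁ ∧ ∃ e', IsPt L z.1 β e' ∧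
        act (z.2, (L.χ (f z.1), e')) = γ' • L.𝓕.σ i' (L.χ (f z.1)) (Θ z) := by
  obtain ⟨hxU, γ, i, ζ, hζ, h3, rfl⟩ := h
  obtain ⟨θ, k1, k2, k3⟩ := hA.holΓ hx hζ.2.1 hz₁ he
  have hχf : ContMDiffAt 𝓘(ℂ, Cm (p + d)) 𝓘(ℂ, Cm p) ω (fun x' => L.χ (f x')) x :=
    ContMDiffAt.comp x (g := L.χ) (f := f) (L.contMDiffAt_χ hxU) (hf x)
  have hin : ContMDiffAt (𝓘(ℂ, Cm (p + d)).prod 𝓘(ℂ, EuclideanSpace ℂ (Fin b)))
      𝓘(ℂ, EuclideanSpace ℂ (Fin b) × (Cm p × Cm d)) ω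
      (fun z : Z × EuclideanSpace ℂ (Fin b) => (z.2, (L.χ (f z.1), ζ z.1))) (x, v₀) := by
    have a1 : ContMDiffAt (𝓘(ℂ, Cm (p + d)).prod 𝓘(ℂ, EuclideanSpace ℂ (Fin b)))
        𝓘(ℂ, EuclideanSpace ℂ (Fin b)) ω (fun z : Z × EuclideanSpace ℂ (Fin b) => z.2) (x, v₀) :=
      contMDiffAt_snd
    have a2 : ContMDiffAt (𝓘(ℂ, Cm (p + d)).prod 𝓘(ℂ, EuclideanSpace ℂ (Fin b))) 𝓘(ℂ, Cm p) ω
        (fun z : Z × EuclideanSpace ℂ (Fin b) => L.χ (f z.1)) (x, v₀) :=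
      ContMDiffAt.comp (x, v₀) (g := fun x' => L.χ (f x'))
        (f := fun z : Z × EuclideanSpace ℂ (Fin b) => z.1) hχf contMDiffAt_fst
    have a3 : ContMDiffAt (𝓘(ℂ, Cm (p + d)).prod 𝓘(ℂ, EuclideanSpace ℂ (Fin b))) 𝓘(ℂ, Cm d) ω
        (fun z : Z × EuclideanSpace ℂ (Fin b) => ζ z.1) (x, v₀) :=
      ContMDiffAt.comp (x, v₀) (g := ζ)
        (f := fun z : Z × EuclideanSpace ℂ (Fin b) => z.1) hζ.1 contMDiffAt_fst
    exact a1.prodMk_space (a2.prodMk_space a3)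
  have hcont := hin.continuousAt
  refine ⟨fun z => θ (z.2, (L.χ (f z.1), ζ z.1)), ?_, k2, ?_⟩
  · exact ContMDiffAt.comp (x, v₀) (g := θ)
      (f := fun z : Z × EuclideanSpace ℂ (Fin b) => (z.2, (L.χ (f z.1), ζ z.1)))
      k1.contDiffAt.contMDiffAt hin
  · have b1 : ∀ᶠ z : Z × EuclideanSpace ℂ (Fin b) in 𝓝 (x, v₀), L.χ (f z.1) ∈ T₁ := by
      have c1 : ContinuousAt (fun z : Z × EuclideanSpace ℂ (Fin b) => L.χ (f z.1)) (x, v₀) :=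
        (continuous_fst.comp continuous_snd).continuousAt.comp hcont
      exact c1.eventually (hA.imm.isOpen.mem_nhds hx)
    have b2 : ∀ᶠ z : Z × EuclideanSpace ℂ (Fin b) in 𝓝 (x, v₀),
        IsPt L z.1 β (γ • L.𝓕.σ i (L.χ (f z.1)) (ζ z.1)) :=
      (continuous_fst.tendsto (x, v₀)).eventually (isPt_near hf hxU hζ h3)
    have b3 := hcont.eventually k3
    filter_upwards [b1, b2, b3] with z c1 c2 c3
    exact ⟨c1, _, c2, c3⟩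

theorem f_q {y : Y} (hy : y ∈ L.U) (e : L.E) : f (L.q (L.χ y) e) = y := by
  rw [L.model.fib _ (L.hT' hy.2), L.left_inv hy]

variable (I : Inputs) (hd : 0 < d) (hn : n = 2 * g)
  (hf : ContMDiff 𝓘(ℂ, Cm (p + d)) 𝓘(ℂ, Cm p) ω f) (hw : IsKahler w)
  (D : (Fin n → ℝ) ≃L[ℝ] EuclideanSpace ℂ (Fin g))

include I hd hn hf hw D

/-- `u` does not depend on the point -/
theorem uL_eq {x : Z} {β : Z → EuclideanSpace ℂ (Fin g)} {e : L.E} (h : IsPt L x β e)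
    (hx : L.χ (f x) ∈ T₁) (v : EuclideanSpace ℂ (Fin b)) :
    uL L act x β v = L.q (L.χ (f x)) (act (v, (L.χ (f x), e))) := by
  have h0 := pt_spec h.isLift
  obtain ⟨τ, ρ, G, c, hc, hτ⟩ := exists_cmp I hd hn hf hw L L D D h.1 h.1 (e := pt L x β)
    (e' := e) (by rw [h0.q, h.q])
  have hnear := hc.near hf h0 (by rw [hτ]; exact h)
  have hG : ∀ v, G v = v := by
    refine eq_id_of_near h.isLift (c := c) ?_
    filter_upwards [hnear] with z hz hfz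
    obtain ⟨e₁, h1, h2⟩ := hz hfz
    have h3 := hc.F e₁
    have h4 := h1.F
    have h5 := h2.F
    rw [hfz] at h4 h5
    rw [h4, h5] at h3
    exact h3
  have h1 := hA.cmp hA hx hx hc (v := v) (v' := v) (by rw [hG]) (pt L x β)
  rw [hτ] at h1
  rw [uL, h1, hc.q]

/-- **`uhol`** -/
theorem uhol {x : Z} {β : Z → EuclideanSpace ℂ (Fin g)} (h : L.IsLift x β)
    (hx : L.χ (f x) ∈ T₁) (v₀ : EuclideanSpace ℂ (Fin b)) :
    ContMDiffAt (𝓘(ℂ, Cm (p + d)).prod 𝓘(ℂ, EuclideanSpace ℂ (Fin b))) 𝓘(ℂ, Cm (p + d)) ω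
      (fun z : Z × EuclideanSpace ℂ (Fin b) => uL L act z.1 β z.2) (x, v₀) := by
  obtain ⟨e, he⟩ := exists_isPt h
  have ht := L.hT' he.1.2
  obtain ⟨γ', i', z₁, hz₁, h1⟩ := L.𝓕.cover _ ht (act (v₀, (L.χ (f x), e)))
  obtain ⟨Θ, k1, k2, k3⟩ := hA.loc hf he hx (Sh.mem3 hz₁) h1.symm
  have h2 : (fun z : Z × EuclideanSpace ℂ (Fin b) => uL L act z.1 β z.2) =ᶠ[𝓝 (x, v₀)]
      fun z => L.q (L.χ (f z.1)) (L.𝓕.σ i' (L.χ (f z.1)) (Θ z)) := by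
    filter_upwards [k3] with z hz
    obtain ⟨c1, e', c2, c3⟩ := hz
    rw [hA.uL_eq I hd hn hf hw D c2 c1, c3, L.q_smul c2.1]
  refine ContMDiffAt.congr_of_eventuallyEq ?_ h2
  have hχf : ContMDiffAt 𝓘(ℂ, Cm (p + d)) 𝓘(ℂ, Cm p) ω (fun x' => L.χ (f x')) x :=
    ContMDiffAt.comp x (g := L.χ) (f := f) (L.contMDiffAt_χ he.1) (hf x)
  have a2 : ContMDiffAt (𝓘(ℂ, Cm (p + d)).prod 𝓘(ℂ, EuclideanSpace ℂ (Fin b))) 𝓘(ℂ, Cm p) ω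
      (fun z : Z × EuclideanSpace ℂ (Fin b) => L.χ (f z.1)) (x, v₀) :=
    ContMDiffAt.comp (x, v₀) (g := fun x' => L.χ (f x'))
      (f := fun z : Z × EuclideanSpace ℂ (Fin b) => z.1) hχf contMDiffAt_fst
  have h3 := L.model.hol i' _ ht z₁ (Sh.mem3 hz₁)
  rw [← k2] at h3
  exact ContMDiffAt.comp (x, v₀) (g := fun r : Cm p × Cm d => L.q r.1 (L.𝓕.σ i' r.1 r.2))
    (f := fun z : Z × EuclideanSpace ℂ (Fin b) => (L.χ (f z.1), Θ z)) h3 (a2.prodMk_space k1)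

/-- **`fib`** -/
theorem fib {x : Z} {β : Z → EuclideanSpace ℂ (Fin g)} (h : L.IsLift x β)
    (v : EuclideanSpace ℂ (Fin b)) : f (uL L act x β v) = f x := hA.f_q h.1 _

/-- **`zero`** -/
theorem uzero {x : Z} {β : Z → EuclideanSpace ℂ (Fin g)} (h : L.IsLift x β)
    (hx : L.χ (f x) ∈ T₁) : uL L act x β 0 = x := by
  rw [uL, hA.zero _ hx, (pt_spec h).q]

/-- **`per`** -/
theorem uper {x : Z} {β : Z → EuclideanSpace ℂ (Fin g)} (h : L.IsLift x β)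
    (hx : L.χ (f x) ∈ T₁) {w' : EuclideanSpace ℂ (Fin b)} {κ : core L.Γ m}
    (hκ : κ ∈ NL L (L.χ (f x))) (hw' : J (L.χ (f x)) w' = cL L (L.χ (f x)) κ)
    (v : EuclideanSpace ℂ (Fin b)) : uL L act x β (v + w') = uL L act x β v := by
  rw [uL, uL, hA.add _ hx, hA.act_NL hx hκ hw', hA.act_smul hx]
  exact L.q_smul h.1 (κ : L.Γ) _

/-- **`trans`** -/
theorem utrans {x : Z} {β : Z → EuclideanSpace ℂ (Fin g)} (h : L.IsLift x β)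
    (hx : L.χ (f x) ∈ T₁) (v₀ : EuclideanSpace ℂ (Fin b)) :
    ∃ β', L.IsLift (uL L act x β v₀) β' ∧
      (∀ v', uL L act (uL L act x β v₀) β' v' = uL L act x β (v₀ + v')) ∧
      ∀ᶠ z in 𝓝 (x, v₀), β' (uL L act z.1 β z.2) = β z.1 + J (L.χ (f z.1)) z.2 := by
  have he := pt_spec h
  set e := pt L x β with hedef
  have ht := L.hT' he.1.2
  set x₁ := uL L act x β v₀ with hx₁
  have hfx₁ : f x₁ = f x := hA.fib I hd hn hf hw D h v₀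
  have hx₁U : f x₁ ∈ L.U := by rw [hfx₁]; exact h.1
  have hx₁q : L.q (L.χ (f x)) (act (v₀, (L.χ (f x), e))) = x₁ := rfl
  obtain ⟨γ₁, i₁, z₁, hz₁, h1⟩ := L.𝓕.cover _ ht (act (v₀, (L.χ (f x), e)))
  have hz3 := Sh.mem3 hz₁
  have h2 : L.q (L.χ (f x₁)) (L.𝓕.σ i₁ (L.χ (f x₁)) z₁) = x₁ := by
    rw [← L.q_smul hx₁U γ₁, hfx₁, h1]
    rfl
  obtain ⟨ζ₁, h3, h4⟩ := L.exists_co hx₁U hz3 h2
  set β' : Z → EuclideanSpace ℂ (Fin g) :=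
    fun z => FL L (L.χ (f z)) (γ₁ • L.𝓕.σ i₁ (L.χ (f z)) (ζ₁ z)) with hβ'
  have h5 : IsPt L x₁ β' (act (v₀, (L.χ (f x), e))) :=
    ⟨hx₁U, γ₁, i₁, ζ₁, h3, Eventually.of_forall fun _ => rfl, by rw [h4, hfx₁, h1]⟩
  refine ⟨β', h5.isLift, fun v' => ?_, ?_⟩
  · rw [hA.uL_eq I hd hn hf hw D h5 (by rw [hfx₁]; exact hx), hfx₁, ← hA.add _ hx, add_comm]
    rfl
  · obtain ⟨Θ, k1, k2, k3⟩ := hA.loc hf he hx hz3 h1.symm
    have k4 : ContinuousAt (fun z : Z × EuclideanSpace ℂ (Fin b) => uL L act z.1 β z.2) (x, v₀) :=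
      (hA.uhol I hd hn hf hw D h hx v₀).continuousAt
    have k5 : ∀ᶠ z in 𝓝 (x, v₀), Θ z ∈ ball (0 : Cm d) 3 := k1.continuousAt.eventually (by
      show ∀ᶠ u in 𝓝 (Θ (x, v₀)), u ∈ ball (0 : Cm d) 3
      rw [k2]
      exact isOpen_ball.mem_nhds hz3)
    have k6 : ∀ᶠ z : Z × EuclideanSpace ℂ (Fin b) in 𝓝 (x, v₀),
        L.IsCo (uL L act z.1 β z.2) i₁ ζ₁ := k4.eventually (DLocE.IsCo.near L h3)
    filter_upwards [k3, k5, k6] with z a1 a2 a3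
    obtain ⟨c1, e', c2, c3⟩ := a1
    have c4 : f (uL L act z.1 β z.2) = f z.1 := hA.fib I hd hn hf hw D c2.isLift _
    have c5 : uL L act z.1 β z.2 = L.q (L.χ (f z.1)) (γ₁ • L.𝓕.σ i₁ (L.χ (f z.1)) (Θ z)) := by
      rw [hA.uL_eq I hd hn hf hw D c2 c1, c3]
    have c6 : L.q (L.χ (f z.1)) (L.𝓕.σ i₁ (L.χ (f z.1)) (ζ₁ (uL L act z.1 β z.2))) =
        uL L act z.1 β z.2 := by
      have := a3.2.2.self_of_nhds
      rwa [c4] at this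
    have c7 : Θ z = ζ₁ (uL L act z.1 β z.2) :=
      DLocE.eq_of_q c2.1 (γ := γ₁) (i := i₁) a2 a3.2.1 (by rw [c6, ← c5])
    show FL L (L.χ (f (uL L act z.1 β z.2))) (γ₁ • L.𝓕.σ i₁ (L.χ (f (uL L act z.1 β z.2)))
      (ζ₁ (uL L act z.1 β z.2))) = _
    rw [c4, ← c7, ← c3, hA.F _ c1, c2.F]

omit D in
/-- **`change`** -/
theorem uchange {L' : DLocE (p := p) (d := d) f w m B g} {T₁' : Set (Cm p)}
    {J' : Cm p → EuclideanSpace ℂ (Fin b) →L[ℂ] EuclideanSpace ℂ (Fin g)}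
    {act' : EuclideanSpace ℂ (Fin b) × (Cm p × L'.E) → L'.E} (hA' : IsFlow L' T₁' J' act')
    (D D' : (Fin n → ℝ) ≃L[ℝ] EuclideanSpace ℂ (Fin g)) {x : Z}
    {β β' : Z → EuclideanSpace ℂ (Fin g)} (hβ : L.IsLift x β) (hβ' : L'.IsLift x β')
    (hx : L.χ (f x) ∈ T₁) (hx' : L'.χ (f x) ∈ T₁') :
    ∃ (τ : L.E ≃ₜ L'.E) (ρ : L.Γ ≃* L'.Γ)
      (G : EuclideanSpace ℂ (Fin g) ≃L[ℂ] EuclideanSpace ℂ (Fin g)) (c : EuclideanSpace ℂ (Fin g)),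
      IsCmp L L' D D' (f x) τ ρ G c ∧
      ∀ Gb : EuclideanSpace ℂ (Fin b) ≃L[ℂ] EuclideanSpace ℂ (Fin b),
        (∀ v, J' (L'.χ (f x)) (Gb v) = G (J (L.χ (f x)) v)) →
        ∀ᶠ z in 𝓝 x, f z = f x → β' z = G (β z) + c ∧
          ∀ v, uL L' act' z β' (Gb v) = uL L act z β v := by
  have h0 := pt_spec hβ
  have h0' := pt_spec hβ'
  obtain ⟨τ, ρ, G, c, hc, hτ⟩ := exists_cmp I hd hn hf hw L L' D D' hβ.1 hβ'.1
    (e := pt L x β) (e' := pt L' x β') (by rw [h0.q, h0'.q])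
  refine ⟨τ, ρ, G, c, hc, fun Gb hGb => ?_⟩
  have hnear := hc.near hf h0 (by rw [hτ]; exact h0')
  filter_upwards [hnear] with z hz hfz
  obtain ⟨e₁, h1, h2⟩ := hz hfz
  refine ⟨?_, fun v => ?_⟩
  · have h3 := hc.F e₁
    have h4 := h1.F
    have h5 := h2.F
    rw [hfz] at h4 h5
    rw [h4, h5] at h3
    exact h3
  · rw [hA.uL_eq I hd hn hf hw D h1 (by rw [hfz]; exact hx),
      hA'.uL_eq I hd hn hf hw D' h2 (by rw [hfz]; exact hx'), hfz,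
      hA.cmp hA' hx hx' hc (hGb v) e₁, hc.q]

end IsFlow

end Vale.Agent.P281.H303.UD
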